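import Crest.Agent.Lib.CW2.Defs

/-! Algebra of triangular presentations: potentials, chain contraction, torsion freeness. -/

set_option autoImplicit false

namespace Crest.Agent.Lib.CW2

variable {G : Type} [Group G] {S T : Type}

theorem TriPres.induction_right (P : TriPres G S T) (p : G → Prop) (h1 : p 1)
    (hs : ∀ g s, p g ↔ p (g * P.of s)) (g : G) : p g := by
  have hg : g ∈ Subgroup.closure (Set.range P.of) := by rw [P.gen]; trivial
  induction hg using Subgroup.closure_induction_right with
  | one => exact h1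
  | mul_right x _ y hy ih =>
    obtain ⟨s, rfl⟩ := hy
    exact (hs x s).1 ih
  | mul_inv_cancel x _ y hy ih =>
    obtain ⟨s, rfl⟩ := hy
    refine (hs _ s).2 ?_
    rwa [inv_mul_cancel_right]

/-- a family of permutations over the right multiplications that satisfies the relations has a
section through any point over `1` -/
theorem TriPres.exists_potential (P : TriPres G S T) {X : Type} (π : X → G)
    (f : S → Equiv.Perm X) (hπ : ∀ s x, π (f s x) = π x * P.of s)
    (hf : ∀ t x, f (P.d12 t) (f (P.d01 t) x) = f (P.d02 t) x) (x0 : X) (hx0 : π x0 = 1) :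
    ∃ σ : G → X, σ 1 = x0 ∧ (∀ g, π (σ g) = g) ∧ ∀ g s, f s (σ g) = σ (g * P.of s) := by
  obtain ⟨φ, hφ⟩ := P.lift (Equiv.Perm X)ᵐᵒᵖ (fun s => MulOpposite.op (f s)) (by
    intro t
    rw [← MulOpposite.op_mul]
    congr 1
    ext x
    exact hf t x)
  have hmul : ∀ g s, f s ((φ g).unop x0) = (φ (g * P.of s)).unop x0 := by
    intro g s
    rw [map_mul, hφ, MulOpposite.unop_mul]
    rfl
  refine ⟨fun g => (φ g).unop x0, by simp, ?_, hmul⟩
  refine P.induction_right _ (by simpa using hx0) fun g s => ?_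
  beta_reduce
  rw [← hmul, hπ, mul_left_inj]

theorem TriPres.isFinitelyPresented' [Finite S] [Finite T] (P : TriPres G S T) :
    Group.IsFinitelyPresented G := by
  let Q := TriPres.presented P.d01 P.d12 P.d02
  have : Finite (triRels P.d01 P.d12 P.d02) := Set.finite_range _
  obtain ⟨φ, hφ⟩ := P.lift _ Q.of Q.rel
  obtain ⟨ψ, hψ⟩ := Q.lift _ P.of P.rel
  have h1 : ∀ g, ψ (φ g) = g := by
    refine P.induction_right _ (by simp) fun g s => ?_
    rw [map_mul, map_mul, hφ, hψ, mul_left_inj]
  have h2 : ∀ g, φ (ψ g) = g := by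
    refine Q.induction_right _ (by simp) fun g s => ?_
    rw [map_mul, map_mul, hψ, hφ, mul_left_inj]
  exact Group.IsFinitelyPresented.equiv
    (MonoidHom.toMulEquiv ψ φ (MonoidHom.ext h2) (MonoidHom.ext h1))

/-- a chain contraction in degree one -/
theorem TriPres.exists_contraction (P : TriPres G S T) :
    ∃ (p : G → (G × S →₀ ℤ)) (r : G × S → (G × T →₀ ℤ)), ∀ g s,
      P.toTriData.bd (r (g, s)) = p g + Finsupp.single (g, s) 1 - p (g * P.of s) := by
  let M := (G × S →₀ ℤ) ⧸ LinearMap.range P.toTriData.bd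
  let q : (G × S →₀ ℤ) →ₗ[ℤ] M := Submodule.mkQ _
  let f : S → Equiv.Perm (G × M) := fun s =>
    { toFun := fun x => (x.1 * P.of s, x.2 + q (Finsupp.single (x.1, s) 1))
      invFun := fun x => (x.1 * (P.of s)⁻¹, x.2 - q (Finsupp.single (x.1 * (P.of s)⁻¹, s) 1))
      left_inv := fun x => by simp
      right_inv := fun x => by simp }
  obtain ⟨σ, -, hσ, hf⟩ := P.exists_potential Prod.fst f (fun _ _ => rfl) (by
    rintro t ⟨g, m⟩
    have h0 : q (P.toTriData.bdT (g, t)) = 0 := by
      refine (Submodule.Quotient.mk_eq_zero _).2 ⟨Finsupp.single (g, t) 1, ?_⟩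
      rw [TriData.bd_single, one_smul]
    simp only [TriData.bdT, map_add, map_sub, sub_eq_zero] at h0
    refine Prod.ext ?_ ?_
    · change g * _ * _ = g * _
      rw [mul_assoc, P.rel]
    · change m + _ + _ = m + _
      rw [add_assoc]
      exact congrArg _ h0) (1, 0) rfl
  choose p hp using fun g => Submodule.mkQ_surjective _ (σ g).2
  have : ∀ e : G × S, ∃ c, P.toTriData.bd c = p e.1 + Finsupp.single e 1 - p (e.1 * P.of e.2) := by
    rintro ⟨g, s⟩
    refine (Submodule.Quotient.mk_eq_zero (LinearMap.range P.toTriData.bd)).1 ?_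
    change q _ = 0
    have h1 := congrArg Prod.snd (hf g s)
    change (σ g).2 + q (Finsupp.single ((σ g).1, s) 1) = _ at h1
    rw [hσ] at h1
    rw [map_sub, map_add, sub_eq_zero]
    change Submodule.mkQ _ (p g) + _ = Submodule.mkQ _ (p (g * P.of s))
    rw [hp, hp, ← h1]
  choose r hr using this
  exact ⟨p, r, fun g s => hr (g, s)⟩

/-- every 2-cochain is a coboundary -/
theorem TriPres.exists_cochain (P : TriPres G S T) (h : Function.Injective P.toTriData.bd)
    (A : Type) [CommGroup A] (o : G × T → A) :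
    ∃ a : G × S → A, ∀ g t,
      a (g, P.d01 t) * a (g * P.of (P.d01 t), P.d12 t) = o (g, t) * a (g, P.d02 t) := by
  obtain ⟨p, r, hr⟩ := P.exists_contraction
  let O : (G × T →₀ ℤ) →ₗ[ℤ] Additive A :=
    Finsupp.linearCombination ℤ fun c => Additive.ofMul (o c)
  refine ⟨fun e => Additive.toMul (O (r e)), fun g t => ?_⟩
  have h1 : r (g, P.d01 t) + r (g * P.of (P.d01 t), P.d12 t) =
      Finsupp.single (g, t) 1 + r (g, P.d02 t) := by
    apply h
    rw [map_add, map_add, hr, hr, hr, TriData.bd_single, one_smul, TriData.bdT, mul_assoc, P.rel]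
    abel
  have h2 := congrArg (fun c => Additive.toMul (O c)) h1
  simpa [O] using h2

section Cyc

variable {A : Type} (τ : Equiv.Perm A) (n : ℕ)

/-- the shift of chains along a permutation -/
noncomputable def shift : Module.End ℤ (A →₀ ℤ) := Finsupp.lmapDomain ℤ ℤ τ

theorem shift_single (a : A) (m : ℤ) : shift τ (Finsupp.single a m) = Finsupp.single (τ a) m := by
  simp [shift]

theorem shift_pow_single (i : ℕ) (a : A) (m : ℤ) :
    (shift τ ^ i) (Finsupp.single a m) = Finsupp.single ((τ ^ i) a) m := by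
  induction i with
  | zero => simp
  | succ i ih => rw [pow_succ', pow_succ', Module.End.mul_apply, ih, shift_single]; rfl

theorem shift_pow_apply (i : ℕ) (x : A →₀ ℤ) (a : A) : (shift τ ^ i) x ((τ ^ i) a) = x a := by
  classical
  induction x using Finsupp.induction_linear with
  | zero => simp
  | add f g hf hg => simp [hf, hg]
  | single b m => rw [shift_pow_single]; simp [Finsupp.single_apply]

variable {τ n}

theorem shift_pow_eq_one (hn : τ ^ n = 1) : shift τ ^ n = 1 := by
  ext a : 2
  simp [shift_pow_single, hn]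

theorem cyc_exact (hn0 : 0 < n) (hn : τ ^ n = 1)
    (hfree : ∀ i a, 0 < i → i < n → (τ ^ i) a ≠ a) :
    (∀ x, (shift τ - 1) x = 0 → ∃ y, (∑ i ∈ Finset.range n, shift τ ^ i) y = x) ∧
    (∀ x, (∑ i ∈ Finset.range n, shift τ ^ i) x = 0 → ∃ y, (shift τ - 1) y = x) := by
  classical
  set N := ∑ i ∈ Finset.range n, shift τ ^ i with hN
  have hfin : IsOfFinOrder τ := isOfFinOrder_iff_pow_eq_one.2 ⟨n, hn0, hn⟩
  let ρ : A → A := fun a => (Quotient.mk (MulAction.orbitRel (Subgroup.zpowers τ) A) a).out
  have hρ1 : ∀ a, ∃ i : ℕ, ρ a = (τ ^ i) a := by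
    intro a
    obtain ⟨⟨g, hg⟩, h⟩ := Quotient.mk_out (s := MulAction.orbitRel (Subgroup.zpowers τ) A) a
    obtain ⟨i, rfl⟩ := (hfin.mem_powers_iff_mem_zpowers).2 hg
    exact ⟨i, h.symm⟩
  have hρ2 : ∀ (i : ℕ) a, ρ ((τ ^ i) a) = ρ a := by
    intro i a
    have : Quotient.mk (MulAction.orbitRel (Subgroup.zpowers τ) A) ((τ ^ i) a) =
        Quotient.mk (MulAction.orbitRel (Subgroup.zpowers τ) A) a :=
      Quotient.sound ⟨⟨τ ^ i, Subgroup.npow_mem_zpowers τ i⟩, rfl⟩
    simp only [ρ, this]
  have hρ3 : ∀ a, ρ (ρ a) = ρ a := by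
    intro a
    obtain ⟨i, hi⟩ := hρ1 a
    conv_lhs => rw [hi]
    rw [hρ2]
  have hNT : N * (shift τ - 1) = 0 := by rw [hN, geom_sum_mul, shift_pow_eq_one hn, sub_self]
  have hTN : (shift τ - 1) * N = 0 := by rw [hN, mul_geom_sum, shift_pow_eq_one hn, sub_self]
  have hD : ∀ y : A →₀ ℤ, (∀ a, ρ a ≠ a → y a = 0) → ∀ d, ρ d = d → N y d = y d := by
    intro y hy d hd
    rw [hN, LinearMap.sum_apply, Finsupp.finsetSum_apply, Finset.sum_eq_single 0]
    · simp
    · intro i hi hi0
      obtain ⟨b, rfl⟩ := (τ ^ i).surjective d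
      rw [shift_pow_apply]
      refine hy b fun hb => ?_
      rw [hρ2, hb] at hd
      exact hfree i b (Nat.pos_of_ne_zero hi0) (Finset.mem_range.1 hi) hd.symm
    · intro h
      exact absurd (Finset.mem_range.2 hn0) h
  have hinv : ∀ z : A →₀ ℤ, (shift τ - 1) z = 0 → ∀ a, z (ρ a) = z a := by
    intro z hz a
    obtain ⟨i, hi⟩ := hρ1 a
    have h1 : shift τ z = z := by simpa [sub_eq_zero] using hz
    have h2 : (shift τ ^ i) z = z := by
      rw [Module.End.pow_apply]
      exact Function.iterate_fixed h1 i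
    rw [hi]
    conv_lhs => rw [← h2]
    exact shift_pow_apply τ i z a
  constructor
  · intro x hx
    refine ⟨x.filter fun a => ρ a = a, ?_⟩
    have h1 : (shift τ - 1) (N (x.filter fun a => ρ a = a)) = 0 := by
      rw [← Module.End.mul_apply, hTN]; rfl
    ext a
    rw [← hinv _ h1, ← hinv _ hx, hD _ (fun a ha => Finsupp.filter_apply_neg _ _ ha) _ (hρ3 a),
      Finsupp.filter_apply_pos (fun a => ρ a = a) _ (hρ3 a)]
  · intro x hx
    have h1 : ∀ x : A →₀ ℤ, x - Finsupp.mapDomain ρ x ∈ LinearMap.range (shift τ - 1) := by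
      intro x
      induction x using Finsupp.induction_linear with
      | zero => simp
      | add f g hf hg =>
        rw [Finsupp.mapDomain_add]
        convert Submodule.add_mem _ hf hg using 1
        abel
      | single a m =>
        obtain ⟨i, hi⟩ := hρ1 a
        rw [Finsupp.mapDomain_single, hi, ← shift_pow_single]
        refine ⟨-(∑ j ∈ Finset.range i, shift τ ^ j) (Finsupp.single a m), ?_⟩
        rw [map_neg, ← Module.End.mul_apply, mul_geom_sum]
        simp
    obtain ⟨y, hy⟩ := h1 x
    have h2 : N (Finsupp.mapDomain ρ x) = 0 := by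
      have := congrArg N hy
      rw [← Module.End.mul_apply, hNT, map_sub, hx] at this
      simpa using this
    have h3 : ∀ a, ρ a ≠ a → Finsupp.mapDomain ρ x a = 0 := by
      intro a ha
      refine Finsupp.mapDomain_of_notMem_range _ _ ?_
      rintro ⟨b, rfl⟩
      exact ha (hρ3 b)
    have h4 : Finsupp.mapDomain ρ x = 0 := by
      ext a
      by_cases ha : ρ a = a
      · rw [← hD _ h3 a ha, h2]
      · exact h3 a ha
    exact ⟨y, by rw [hy, h4, sub_zero]⟩

theorem shift_geom_comm {B : Type} {τ' : Equiv.Perm B} (d : (A →₀ ℤ) →ₗ[ℤ] (B →₀ ℤ))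
    (hd : ∀ x, d (shift τ x) = shift τ' (d x)) (x : A →₀ ℤ) :
    d ((∑ i ∈ Finset.range n, shift τ ^ i) x) = (∑ i ∈ Finset.range n, shift τ' ^ i) (d x) := by
  have : ∀ i x, d ((shift τ ^ i) x) = (shift τ' ^ i) (d x) := by
    intro i
    induction i with
    | zero => simp
    | succ i ih => intro x; rw [pow_succ, pow_succ, Module.End.mul_apply, ih, hd]; rfl
  simp only [LinearMap.sum_apply, map_sum, this]

end Cyc

theorem TriPres.torsionFree' (P : TriPres G S T) (h : Function.Injective P.toTriData.bd) (g : G)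
    (hg : IsOfFinOrder g) : g = 1 := by
  obtain ⟨p, r, hr⟩ := P.exists_contraction
  set n := orderOf g with hn
  have hn0 : 0 < n := hg.orderOf_pos
  let τ : ∀ ι : Type, Equiv.Perm (G × ι) := fun ι => (Equiv.mulLeft g).prodCongr (Equiv.refl ι)
  have hτ : ∀ (ι : Type) (i : ℕ) (a : G × ι), (τ ι ^ i) a = (g ^ i * a.1, a.2) := by
    intro ι i a
    induction i with
    | zero => simp
    | succ i ih => rw [pow_succ', Equiv.Perm.mul_apply, ih, pow_succ', mul_assoc]; rfl
  have hex := fun ι : Type => cyc_exact (τ := τ ι) (n := n) hn0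
    (by ext a : 1; rw [hτ, hn, pow_orderOf_eq_one]; simp)
    (by
      intro i a hi hi' e
      rw [hτ] at e
      have := congrArg Prod.fst e
      simp only [mul_eq_right] at this
      exact pow_ne_one_of_lt_orderOf hi.ne' hi' this)
  let v : G → (G × Unit →₀ ℤ) := fun k => Finsupp.single (k, ()) 1
  let d1 : (G × S →₀ ℤ) →ₗ[ℤ] (G × Unit →₀ ℤ) :=
    Finsupp.linearCombination ℤ fun e => v (e.1 * P.of e.2) - v e.1
  have hd1 : ∀ k s, d1 (Finsupp.single (k, s) 1) = v (k * P.of s) - v k := by
    intro k s; simp [d1]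
  have hdd : ∀ c, d1 (P.toTriData.bd c) = 0 := by
    intro c
    induction c using Finsupp.induction_linear with
    | zero => simp
    | add f g hf hg => simp [hf, hg]
    | single a m =>
      rw [TriData.bd_single, map_smul, TriData.bdT, map_sub, map_add, hd1, hd1, hd1, mul_assoc,
        P.rel]
      simp
  let Pm : (G × Unit →₀ ℤ) →ₗ[ℤ] (G × S →₀ ℤ) := Finsupp.linearCombination ℤ fun k => p k.1
  have hPm : ∀ k, Pm (v k) = p k := by intro k; simp [Pm, v]
  have hex1 : ∀ c, P.toTriData.bd (Finsupp.linearCombination ℤ r c) = c - Pm (d1 c) := by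
    intro c
    induction c using Finsupp.induction_linear with
    | zero => simp
    | add f g hf hg => simp only [map_add, hf, hg]; abel
    | single a m =>
      obtain ⟨k, s⟩ := a
      rw [Finsupp.linearCombination_single, map_smul, hr, ← Finsupp.smul_single_one (k, s) m,
        map_smul, map_smul, hd1, map_sub, hPm, hPm, ← smul_sub]
      congr 1
      abel
  have hp : ∀ k, d1 (p k) - v k = d1 (p 1) - v 1 := by
    refine P.induction_right _ rfl fun k s => ?_
    have h1 := hdd (r (k, s))
    rw [hr, map_sub, map_add, hd1, sub_eq_zero] at h1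
    rw [← h1]
    have : d1 (p k) + (v (k * P.of s) - v k) - v (k * P.of s) = d1 (p k) - v k := by abel
    rw [this]
  have hsv : ∀ k, shift (τ Unit) (v k) = v (g * k) := fun k => shift_single _ _ _
  have hc1 : ∀ x, d1 (shift (τ S) x) = shift (τ Unit) (d1 x) := by
    intro x
    induction x using Finsupp.induction_linear with
    | zero => simp
    | add f g hf hg => simp only [map_add, hf, hg]
    | single a m =>
      obtain ⟨k, s⟩ := a
      rw [← Finsupp.smul_single_one (k, s) m]
      simp only [map_smul]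
      rw [shift_single, hd1 k s, map_sub, hsv, hsv, ← mul_assoc]
      exact congrArg _ (hd1 _ _)
  have hc2 : ∀ x, P.toTriData.bd (shift (τ T) x) = shift (τ S) (P.toTriData.bd x) := by
    intro x
    induction x using Finsupp.induction_linear with
    | zero => simp
    | add f g hf hg => simp only [map_add, hf, hg]
    | single a m =>
      obtain ⟨k, t⟩ := a
      rw [shift_single, TriData.bd_single, TriData.bd_single, map_smul]
      congr 1
      simp only [TriData.bdT, map_sub, map_add, shift_single]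
      simp [τ, mul_assoc]
  have hNT : ∀ ι : Type, (∑ i ∈ Finset.range n, shift (τ ι) ^ i) * (shift (τ ι) - 1) = 0 := by
    intro ι
    rw [geom_sum_mul, shift_pow_eq_one, sub_self]
    ext a : 1; rw [hτ, hn, pow_orderOf_eq_one]; simp
  have hTN : ∀ ι : Type, (shift (τ ι) - 1) * (∑ i ∈ Finset.range n, shift (τ ι) ^ i) = 0 := by
    intro ι
    rw [mul_geom_sum, shift_pow_eq_one, sub_self]
    ext a : 1; rw [hτ, hn, pow_orderOf_eq_one]; simp
  -- the diagram chase
  set x1 := p g - p 1 with hx1
  have e1 : d1 x1 = (shift (τ Unit) - 1) (v 1) := by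
    rw [hx1, map_sub, LinearMap.sub_apply, hsv, mul_one, sub_eq_iff_eq_add, ← sub_add_cancel
      (d1 (p g)) (v g), hp]
    simp only [Module.End.one_apply]
    abel
  set x2 := Finsupp.linearCombination ℤ r ((∑ i ∈ Finset.range n, shift (τ S) ^ i) x1) with hx2
  have e2 : P.toTriData.bd x2 = (∑ i ∈ Finset.range n, shift (τ S) ^ i) x1 := by
    rw [hx2, hex1, shift_geom_comm d1 hc1, e1, ← Module.End.mul_apply, hNT]
    simp
  have e3 : (shift (τ T) - 1) x2 = 0 := by
    apply h
    rw [LinearMap.sub_apply, map_sub, hc2, Module.End.one_apply, map_zero]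
    change (shift (τ S) - 1) _ = 0
    rw [e2, ← Module.End.mul_apply, hTN]; rfl
  obtain ⟨y2, hy2⟩ := (hex T).1 x2 e3
  obtain ⟨y1, hy1⟩ := (hex S).2 (x1 - P.toTriData.bd y2) (by
    rw [map_sub, ← shift_geom_comm _ hc2, hy2, e2, sub_self])
  obtain ⟨y0, hy0⟩ := (hex Unit).1 (v 1 - d1 y1) (by
    have := congrArg d1 hy1
    rw [map_sub d1 x1, hdd, sub_zero, e1, LinearMap.sub_apply, map_sub, hc1] at this
    rw [map_sub, ← this]
    simp)
  let ε : (G × Unit →₀ ℤ) →ₗ[ℤ] ℤ := Finsupp.linearCombination ℤ fun _ => 1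
  have hεv : ∀ k, ε (v k) = 1 := by intro k; simp [ε, v]
  have hεd : ∀ c, ε (d1 c) = 0 := by
    intro c
    induction c using Finsupp.induction_linear with
    | zero => simp
    | add f g hf hg => simp [hf, hg]
    | single a m =>
      obtain ⟨k, s⟩ := a
      rw [← Finsupp.smul_single_one (k, s) m, map_smul, map_smul, hd1, map_sub, hεv, hεv]
      simp
  have hεs : ∀ i x, ε ((shift (τ Unit) ^ i) x) = ε x := by
    intro i x
    induction x using Finsupp.induction_linear with
    | zero => simp
    | add f g hf hg => simp only [map_add, hf, hg]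
    | single a m => rw [shift_pow_single]; simp [ε]
  have e4 := congrArg ε hy0
  rw [map_sub, hεv, hεd, sub_zero, LinearMap.sum_apply, map_sum] at e4
  simp only [hεs, Finset.sum_const, Finset.card_range, nsmul_eq_mul] at e4
  have e5 : (n : ℤ) = 1 := Int.eq_one_of_mul_eq_one_right (by positivity) e4
  exact orderOf_eq_one_iff.1 (by exact_mod_cast e5)

end Crest.Agent.Lib.CW2
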