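import Crest.Agent.Lib.CW2.Space

/-! The finite CW structure on the presentation complex. -/

set_option autoImplicit false

open unitInterval Set Metric

namespace Crest.Agent.Lib.CW2

theorem continuousOn_symm_of_ball {X : Type} [TopologicalSpace X] [T2Space X] {n : ℕ}
    (f : (Fin n → ℝ) → X) (hf : Continuous f) (hi : InjOn f (ball 0 1))
    (hs : ∀ x ∈ sphere (0 : Fin n → ℝ) 1, f x ∉ f '' ball 0 1) :
    ContinuousOn (hi.toPartialEquiv f _).symm (hi.toPartialEquiv f _).target := by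
  refine continuousOn_iff_isClosed.2 fun K hK =>
    ⟨f '' (closedBall 0 1 ∩ K), (((isCompact_closedBall 0 1).inter_right hK).image hf).isClosed, ?_⟩
  ext y
  constructor
  · rintro ⟨h1, x, hx, rfl⟩
    have h2 : (hi.toPartialEquiv f _).symm (f x) = x := (hi.toPartialEquiv f _).left_inv hx
    rw [mem_preimage, h2] at h1
    exact ⟨⟨x, ⟨ball_subset_closedBall hx, h1⟩, rfl⟩, x, hx, rfl⟩
  · rintro ⟨⟨x, ⟨hx, hxK⟩, rfl⟩, h2⟩
    have h3 : x ∈ ball (0 : Fin n → ℝ) 1 := by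
      rw [← ball_union_sphere] at hx
      exact hx.resolve_right fun h => hs x h h2
    refine ⟨?_, h2⟩
    have h4 : (hi.toPartialEquiv f _).symm (f x) = x := (hi.toPartialEquiv f _).left_inv h3
    rwa [mem_preimage, h4]

/-- rescaling `[-1, 1]` to the unit interval -/
noncomputable def rs (x : ℝ) : I := projIcc 0 1 zero_le_one ((x + 1) / 2)

theorem continuous_rs : Continuous rs := (continuous_projIcc (h := zero_le_one)).comp (by fun_prop)

theorem rs_coe {x : ℝ} (h : |x| < 1) : (rs x : ℝ) = (x + 1) / 2 := by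
  rw [abs_lt] at h
  exact congrArg Subtype.val (projIcc_of_mem zero_le_one ⟨by linarith [h.1], by linarith [h.2]⟩)

theorem rs_in {x : ℝ} (h : |x| < 1) : ∃ u : OI, rs x = u := by
  have h1 := rs_coe h
  rw [abs_lt] at h
  refine ⟨⟨rs x, fun e => ?_, fun e => ?_⟩, rfl⟩
  · rw [e, Icc.coe_zero] at h1; linarith [h.1]
  · rw [e, Icc.coe_one] at h1; linarith [h.2]

theorem rs_bdry {x : ℝ} (h : |x| = 1) : rs x = 0 ∨ rs x = 1 := by
  rcases (abs_eq zero_le_one).1 h with rfl | rfl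
  · exact Or.inr (projIcc_of_right_le _ (by norm_num))
  · exact Or.inl (projIcc_of_le_left _ (by norm_num))

theorem rs_surj (u : OI) : ∃ x : ℝ, |x| < 1 ∧ rs x = u := by
  have h0 : (0 : ℝ) < (u : I) := lt_of_le_of_ne u.1.2.1 fun h => u.2.1 (Subtype.ext h.symm)
  have h1 : ((u : I) : ℝ) < 1 := lt_of_le_of_ne u.1.2.2 fun h => u.2.2 (Subtype.ext h)
  have h2 : |2 * ((u : I) : ℝ) - 1| < 1 := abs_lt.2 ⟨by linarith, by linarith⟩
  exact ⟨_, h2, Subtype.ext (by rw [rs_coe h2]; ring)⟩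

theorem rs_inj {x y : ℝ} (hx : |x| < 1) (hy : |y| < 1) (h : rs x = rs y) : x = y := by
  have := congrArg Subtype.val h
  rw [rs_coe hx, rs_coe hy] at this
  linarith

theorem mem_ball_iff {n : ℕ} {x : Fin n → ℝ} : x ∈ ball (0 : Fin n → ℝ) 1 ↔ ∀ i, |x i| < 1 := by
  rw [mem_ball_zero_iff, pi_norm_lt_iff zero_lt_one]; rfl

theorem exists_of_mem_sphere {n : ℕ} {x : Fin n → ℝ} (h : x ∈ sphere (0 : Fin n → ℝ) 1) :
    ∃ i, |x i| = 1 := by
  rw [mem_sphere_zero_iff_norm] at h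
  by_contra hc
  push Not at hc
  have : ‖x‖ < 1 := (pi_norm_lt_iff zero_lt_one).2 fun i =>
    lt_of_le_of_ne (h ▸ norm_le_pi_norm x i) (hc i)
  exact this.ne h

variable {S T : Type}

/-- the cells -/
def cellT (S T : Type) : ℕ → Type
  | 0 => Unit
  | 1 => S
  | 2 => T
  | _ + 3 => Empty

variable (Q : TriData Unit S T)

/-- the characteristic maps -/
noncomputable def chi : (n : ℕ) → cellT S T n → (Fin n → ℝ) → Pt Q
  | 0, _, _ => .v 1
  | 1, s, x => edge Q 1 s (rs (x 0))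
  | 2, t, x => sq Q 1 t (rs (x 0), rs (x 1))
  | _ + 3, i, _ => Empty.elim i

variable {Q}

/-- the open cell that contains a point -/
def tag : Pt Q → Σ n, cellT S T n
  | .v _ => ⟨0, ()⟩
  | .e _ s _ => ⟨1, s⟩
  | .t _ t _ _ => ⟨2, t⟩

theorem continuous_chi : ∀ (n : ℕ) (i : cellT S T n), Continuous (chi Q n i)
  | 0, _ => continuous_const
  | 1, s => (continuous_edge 1 s).comp (continuous_rs.comp (continuous_apply 0))
  | 2, t => (continuous_sq 1 t).comp ((continuous_rs.comp (continuous_apply 0)).prodMk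
      (continuous_rs.comp (continuous_apply 1)))
  | _ + 3, i => Empty.elim i

theorem tag_chi : ∀ (n : ℕ) (i : cellT S T n), ∀ x ∈ ball (0 : Fin n → ℝ) 1,
    tag (chi Q n i x) = ⟨n, i⟩
  | 0, _, _, _ => rfl
  | 1, s, x, hx => by
    obtain ⟨u, hu⟩ := rs_in (mem_ball_iff.1 hx 0)
    rw [chi, hu, edge_in]; rfl
  | 2, t, x, hx => by
    obtain ⟨u, hu⟩ := rs_in (mem_ball_iff.1 hx 0)
    obtain ⟨w, hw⟩ := rs_in (mem_ball_iff.1 hx 1)
    rw [chi, hu, hw, sq_in]; rfl
  | _ + 3, i, _, _ => Empty.elim i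

theorem injOn_chi : ∀ (n : ℕ) (i : cellT S T n), InjOn (chi Q n i) (ball 0 1)
  | 0, _ => fun _ _ _ _ _ => Subsingleton.elim _ _
  | 1, s => by
    intro x hx y hy h
    rw [mem_ball_iff] at hx hy
    obtain ⟨u, hu⟩ := rs_in (hx 0)
    obtain ⟨u', hu'⟩ := rs_in (hy 0)
    rw [chi, chi, hu, hu', edge_in, edge_in] at h
    obtain ⟨-, -, rfl⟩ := Pt.e.inj h
    ext i
    fin_cases i
    exact rs_inj (hx 0) (hy 0) (hu.trans hu'.symm)
  | 2, t => by
    intro x hx y hy h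
    rw [mem_ball_iff] at hx hy
    obtain ⟨u, hu⟩ := rs_in (hx 0)
    obtain ⟨u', hu'⟩ := rs_in (hy 0)
    obtain ⟨w, hw⟩ := rs_in (hx 1)
    obtain ⟨w', hw'⟩ := rs_in (hy 1)
    rw [chi, chi, hu, hu', hw, hw', sq_in, sq_in] at h
    obtain ⟨-, -, rfl, rfl⟩ := Pt.t.inj h
    ext i
    fin_cases i
    · exact rs_inj (hx 0) (hy 0) (hu.trans hu'.symm)
    · exact rs_inj (hx 1) (hy 1) (hw.trans hw'.symm)
  | _ + 3, i => Empty.elim i

theorem tag_edge_le (g : Unit) (s : S) (u : I) : (tag (edge Q g s u)).1 < 2 := by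
  rcases unit_cases u with rfl | rfl | ⟨w, rfl⟩
  · rw [edge_zero]; exact Nat.zero_lt_two
  · rw [edge_one]; exact Nat.zero_lt_two
  · rw [edge_in]; exact Nat.one_lt_two

theorem tag_sphere : ∀ (n : ℕ) (i : cellT S T n), ∀ x ∈ sphere (0 : Fin n → ℝ) 1,
    (tag (chi Q n i x)).1 < n
  | 0, _, x, hx => by
    obtain ⟨i, -⟩ := exists_of_mem_sphere hx
    exact i.elim0
  | 1, s, x, hx => by
    obtain ⟨i, hi⟩ := exists_of_mem_sphere hx
    fin_cases i
    rcases rs_bdry hi with h | h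
    · rw [chi, show rs (x 0) = 0 from h, edge_zero]; exact Nat.zero_lt_one
    · rw [chi, show rs (x 0) = 1 from h, edge_one]; exact Nat.zero_lt_one
  | 2, t, x, hx => by
    obtain ⟨i, hi⟩ := exists_of_mem_sphere hx
    fin_cases i
    · rcases rs_bdry hi with h | h
      · rw [chi, show rs (x 0) = 0 from h, sq_left]; exact Nat.zero_lt_two
      · rw [chi, show rs (x 0) = 1 from h, sq_right]; exact tag_edge_le _ _ _
    · rcases rs_bdry hi with h | h
      · rw [chi, show rs (x 1) = 0 from h, sq_bot]; exact tag_edge_le _ _ _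
      · rw [chi, show rs (x 1) = 1 from h, sq_top]; exact tag_edge_le _ _ _
  | _ + 3, i, _, _ => Empty.elim i

theorem exists_chi (p : Pt Q) : ∃ x ∈ ball (0 : Fin (tag p).1 → ℝ) 1, chi Q _ (tag p).2 x = p := by
  rcases p with g | ⟨g, s, u⟩ | ⟨g, t, u, w⟩
  · exact ⟨0, mem_ball_self zero_lt_one, rfl⟩
  · obtain ⟨x, hx, h⟩ := rs_surj u
    refine ⟨fun _ => x, mem_ball_iff.2 fun _ => hx, ?_⟩
    change edge Q 1 s (rs x) = _
    rw [h, edge_in]
  · obtain ⟨x, hx, h⟩ := rs_surj u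
    obtain ⟨y, hy, h'⟩ := rs_surj w
    refine ⟨(![x, y] : Fin 2 → ℝ), (mem_ball_iff (n := 2)).2 fun i => ?_, ?_⟩
    · fin_cases i
      · exact hx
      · exact hy
    · change sq Q 1 t (rs x, rs y) = _
      rw [h, h', sq_in]

theorem finite_cellT [Finite S] [Finite T] : ∀ n, Finite (cellT S T n)
  | 0 => inferInstanceAs (Finite Unit)
  | 1 => inferInstanceAs (Finite S)
  | 2 => inferInstanceAs (Finite T)
  | _ + 3 => inferInstanceAs (Finite Empty)

theorem isEmpty_cellT {n : ℕ} (h : 2 < n) : IsEmpty (cellT S T n) := by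
  obtain ⟨k, rfl⟩ : ∃ k, n = k + 3 := ⟨n - 3, by omega⟩
  exact inferInstanceAs (IsEmpty Empty)

theorem exists_cw [Finite S] [Finite T] (Q : TriData Unit S T) :
    ∃ _ : Topology.CWComplex (univ : Set (Pt Q)),
      Topology.RelCWComplex.Finite (univ : Set (Pt Q)) ∧
      ∀ n : ℕ, 2 < n → IsEmpty (Topology.RelCWComplex.cell (univ : Set (Pt Q)) n) := by
  have hev : ∀ᶠ n in Filter.atTop, IsEmpty (cellT S T n) :=
    (Filter.eventually_gt_atTop 2).mono fun _ => isEmpty_cellT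
  refine ⟨Topology.CWComplex.mkFinite univ (cellT S T)
    (fun n i => (injOn_chi n i).toPartialEquiv (chi Q n i) _) hev finite_cellT (fun _ _ => rfl)
    (fun n i => (continuous_chi n i).continuousOn)
    (fun n i => continuousOn_symm_of_ball _ (continuous_chi n i) _ ?_) ?_ ?_ ?_,
    Topology.CWComplex.finite_mkFinite _ _ _ _ _ _ _ _ _ _ _, fun n hn => isEmpty_cellT hn⟩
  · rintro x hx ⟨y, hy, h⟩
    have h1 := tag_sphere (Q := Q) n i x hx
    rw [← h, tag_chi n i y hy] at h1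
    exact lt_irrefl _ h1
  · rintro ⟨n, i⟩ - ⟨m, j⟩ - hne
    refine disjoint_left.2 ?_
    rintro _ ⟨x, hx, rfl⟩ ⟨y, hy, h⟩
    exact hne ((tag_chi n i x hx).symm.trans ((congrArg tag h).symm.trans (tag_chi m j y hy)))
  · intro n i x hx
    obtain ⟨y, hy, h⟩ := exists_chi (chi Q n i x)
    exact mem_iUnion₂.2 ⟨_, tag_sphere n i x hx,
      mem_iUnion.2 ⟨_, y, ball_subset_closedBall hy, h⟩⟩
  · refine eq_univ_of_forall fun p => ?_
    obtain ⟨y, hy, h⟩ := exists_chi p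
    exact mem_iUnion₂.2 ⟨_, _, y, ball_subset_closedBall hy, h⟩

end Crest.Agent.Lib.CW2
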