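import Crest.Agent.Lib.CW2.Groupoid

/-! The obstruction to extending a section of the path fibration over a square. -/

set_option autoImplicit false

open CategoryTheory unitInterval

namespace Crest.Agent.Lib.CW2

variable {Y : Type} [TopologicalSpace Y]

local notation "pt" => FundamentalGroupoid.mk

/-- paths starting at `y0` -/
def PS (y0 : Y) : Type := {γ : C(I, Y) // γ 0 = y0}

instance (y0 : Y) : TopologicalSpace (PS y0) :=
  inferInstanceAs (TopologicalSpace {γ : C(I, Y) // γ 0 = y0})

variable {y0 : Y}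

/-- the end point -/
def PS.e (γ : PS y0) : Y := γ.1 1

/-- as a path -/
def PS.path (γ : PS y0) : Path y0 γ.e := ⟨γ.1, γ.2, rfl⟩

theorem PS.continuous_val : Continuous fun γ : PS y0 => γ.1 := continuous_subtype_val

theorem PS.continuous_ev : Continuous fun p : PS y0 × I => p.1.1 p.2 :=
  (PS.continuous_val.comp continuous_fst).eval continuous_snd

theorem PS.continuous_e : Continuous (PS.e : PS y0 → Y) :=
  PS.continuous_val.eval continuous_const

theorem PS.continuous_of {K : Type} [TopologicalSpace K] {f : K → PS y0}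
    (h : Continuous fun p : K × I => (f p.1).1 p.2) : Continuous f :=
  continuous_induced_rng.2 (ContinuousMap.continuous_of_continuous_uncurry _ h)

/-- extension of a path to the real line -/
noncomputable def PS.ext' (γ : PS y0) (r : ℝ) : Y := γ.1 (Set.projIcc 0 1 zero_le_one r)

theorem PS.continuous_ext' {K : Type} [TopologicalSpace K] {f : K → PS y0} {r : K → ℝ}
    (hf : Continuous f) (hr : Continuous r) : Continuous fun k => (f k).ext' (r k) :=
  PS.continuous_ev.comp (hf.prodMk ((continuous_projIcc (h := zero_le_one)).comp hr))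

theorem PS.ext'_coe (γ : PS y0) (u : I) : γ.ext' u = γ.1 u := by
  rw [PS.ext', Set.projIcc_val]

theorem PS.ext'_of_le (γ : PS y0) {r : ℝ} (h : r ≤ 0) : γ.ext' r = y0 := by
  rw [PS.ext', Set.projIcc_of_le_left _ h]; exact γ.2

theorem PS.ext'_of_ge (γ : PS y0) {r : ℝ} (h : 1 ≤ r) : γ.ext' r = γ.e := by
  rw [PS.ext', Set.projIcc_of_right_le _ h]; rfl

/-- a loop acts on paths by concatenation at the start -/
noncomputable def act (a : Path y0 y0) (γ : PS y0) : PS y0 :=
  ⟨(a.trans γ.path).toContinuousMap, (a.trans γ.path).source⟩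

theorem act_e (a : Path y0 y0) (γ : PS y0) : (act a γ).e = γ.e := (a.trans γ.path).target

theorem continuous_act : Continuous fun p : Path y0 y0 × PS y0 => act p.1 p.2 :=
  PS.continuous_of (Path.trans_continuous_family (fun p : Path y0 y0 × PS y0 => p.1)
    (Path.continuous_uncurry_iff.2 continuous_fst) (fun p : Path y0 y0 × PS y0 => p.2.path)
    (PS.continuous_ev.comp (continuous_fst.snd.prodMk continuous_snd)))

theorem act_ext'_le (a : Path y0 y0) (γ : PS y0) {r : ℝ} (h : r ≤ 1 / 2) :
    (act a γ).ext' r = a.extend (2 * r) := Path.extend_trans_of_le_half a γ.path h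

theorem act_ext'_ge (a : Path y0 y0) (γ : PS y0) {r : ℝ} (h : 1 / 2 ≤ r) :
    (act a γ).ext' r = γ.ext' (2 * r - 1) := Path.extend_trans_of_half_le a γ.path h

variable (y0) in
/-- the path fibration pulled back to the square -/
def ZS (χ : C(I × I, Y)) : Type := {z : (I × I) × PS y0 // z.2.e = χ z.1}

variable {χ : C(I × I, Y)}

instance : TopologicalSpace (ZS y0 χ) :=
  inferInstanceAs (TopologicalSpace {z : (I × I) × PS y0 // z.2.e = χ z.1})

theorem ZS.continuous_val : Continuous fun z : ZS y0 χ => z.1 := continuous_subtype_val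

theorem ZS.continuous_of {K : Type} [TopologicalSpace K] {f : K → ZS y0 χ}
    (h1 : Continuous fun k => (f k).1.1) (h2 : Continuous fun k => (f k).1.2) : Continuous f :=
  continuous_induced_rng.2 (h1.prodMk h2)

/-- the action of loops on the pulled back fibration -/
noncomputable def actZ : C(Path y0 y0 × ZS y0 χ, ZS y0 χ) where
  toFun p := ⟨(p.2.1.1, act p.1 p.2.1.2), (act_e _ _).trans p.2.2⟩
  continuous_toFun := ZS.continuous_of (ZS.continuous_val.comp continuous_snd).fst
    (continuous_act.comp (continuous_fst.prodMk (ZS.continuous_val.comp continuous_snd).snd))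

/-! ### Transport -/

/-- move from `a` towards `b` by at most `r` -/
noncomputable def mv (a b : I) (r : ℝ) : I :=
  Set.projIcc 0 1 zero_le_one (a + max (-r) (min r (b - a)))

theorem mv_zero (a b : I) : mv a b 0 = a := by
  have : max (-0 : ℝ) (min 0 ((b : ℝ) - a)) = 0 := by
    rw [neg_zero]; exact max_eq_left (min_le_left _ _)
  rw [mv, this, add_zero, Set.projIcc_val]

theorem mv_of_le (a b : I) {r : ℝ} (h : dist a b ≤ r) : mv a b r = b := by
  rw [Subtype.dist_eq, Real.dist_eq, abs_le] at h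
  rw [mv, min_eq_right (by linarith [h.1]), max_eq_right (by linarith [h.2]), add_sub_cancel,
    Set.projIcc_val]

theorem exists_transport : ∃ Tr : ZS y0 χ × (I × I) → PS y0, Continuous Tr ∧
    (∀ z x, (Tr (z, x)).e = χ x) ∧ ∀ z : ZS y0 χ, Tr (z, z.1.1) = z.1.2 := by
  let Γ : (ZS y0 χ × (I × I)) × ℝ → Y := fun p =>
    if p.2 ≤ 1 then p.1.1.1.2.ext' p.2
    else χ (mv p.1.1.1.1.1 p.1.2.1 (p.2 - 1), mv p.1.1.1.1.2 p.1.2.2 (p.2 - 1))
  have hv : Continuous fun p : (ZS y0 χ × (I × I)) × ℝ => p.1.1.1 :=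
    ZS.continuous_val.comp continuous_fst.fst
  have hΓ : Continuous Γ := by
    refine Continuous.if_le (PS.continuous_ext' hv.snd continuous_snd) ?_ continuous_snd
      continuous_const ?_
    · refine χ.continuous.comp (Continuous.prodMk ?_ ?_) <;> unfold mv <;>
        refine continuous_projIcc.comp ?_ <;> fun_prop
    · rintro ⟨⟨z, x⟩, r⟩ (rfl : r = 1)
      dsimp only
      rw [sub_self, mv_zero, mv_zero, PS.ext'_of_ge _ le_rfl]
      exact z.2
  have hd : Continuous fun p : ZS y0 χ × (I × I) => dist p.1.1.1 p.2 :=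
    (ZS.continuous_val.comp continuous_fst).fst.dist continuous_snd
  have hc : Continuous fun q : (ZS y0 χ × (I × I)) × I =>
      Γ (q.1, (1 + dist q.1.1.1.1 q.1.2) * q.2) :=
    hΓ.comp (continuous_fst.prodMk
      ((continuous_const.add (hd.comp continuous_fst)).mul (by fun_prop)))
  refine ⟨fun p => ⟨⟨fun u => Γ (p, (1 + dist p.1.1.1 p.2) * u),
    hc.comp (continuous_const.prodMk continuous_id)⟩, ?_⟩, PS.continuous_of hc, ?_, ?_⟩
  · change Γ (p, (1 + dist p.1.1.1 p.2) * (0 : I)) = y0
    simp only [Γ, Set.Icc.coe_zero, mul_zero, zero_le_one, if_true]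
    exact PS.ext'_of_le _ le_rfl
  · intro z x
    change Γ ((z, x), (1 + dist z.1.1 x) * (1 : I)) = χ x
    simp only [Γ, Set.Icc.coe_one, mul_one]
    split_ifs with h
    · have h0 : dist z.1.1 x = 0 := le_antisymm (by linarith) dist_nonneg
      rw [h0, add_zero, PS.ext'_of_ge _ le_rfl, z.2, dist_eq_zero.1 h0]
    · have e1 : dist z.1.1.1 x.1 ≤ dist z.1.1 x := le_max_left _ _
      have e2 : dist z.1.1.2 x.2 ≤ dist z.1.1 x := le_max_right _ _
      rw [add_sub_cancel_left, mv_of_le _ _ e1, mv_of_le _ _ e2]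
  · intro z
    refine Subtype.ext (ContinuousMap.ext fun u => ?_)
    change Γ ((z, z.1.1), (1 + dist z.1.1 z.1.1) * u) = _
    simp only [Γ, dist_self, add_zero, one_mul, u.2.2, if_true]
    exact PS.ext'_coe _ _

/-! ### Loops act transitively on homotopy classes -/

theorem actZ_surj (z0 : ZS y0 χ) (hz0 : z0.1.1 = (0, 0))
    (b : pt (actZ (Path.refl y0, z0)) ⟶ pt (actZ (Path.refl y0, z0))) :
    ∃ a : pt (Path.refl y0) ⟶ pt (Path.refl y0), mp actZ a (𝟙 _) = b := by
  let h0 := z0.1.2
  have hh0 : h0.e = χ (0, 0) := by rw [← hz0]; exact z0.2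
  let sc : ℝ → I × I → I × I := fun r x =>
    (Set.projIcc 0 1 zero_le_one r * x.1, Set.projIcc 0 1 zero_le_one r * x.2)
  have hsc : Continuous fun p : ℝ × (I × I) => sc p.1 p.2 := by
    refine Continuous.prodMk ?_ ?_
    · exact (continuous_projIcc.comp continuous_fst).mul continuous_snd.fst
    · exact (continuous_projIcc.comp continuous_fst).mul continuous_snd.snd
  have sc1 : ∀ x, sc 1 x = x := by intro x; simp [sc]
  have sc0 : ∀ x, sc 0 x = (0, 0) := by intro x; simp [sc]
  have sc00 : ∀ r, sc r (0, 0) = (0, 0) := by intro x; simp [sc]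
  let Γ : ZS y0 χ × ℝ → Y := fun p =>
    if p.2 ≤ 1 then p.1.1.2.ext' p.2
    else if p.2 ≤ 2 then χ (sc (2 - p.2) p.1.1.1) else h0.ext' (3 - p.2)
  have hv : Continuous fun p : ZS y0 χ × ℝ => p.1.1 := ZS.continuous_val.comp continuous_fst
  have hΓ : Continuous Γ := by
    refine Continuous.if_le (PS.continuous_ext' hv.snd continuous_snd) ?_ continuous_snd
      continuous_const ?_
    · refine Continuous.if_le
        (χ.continuous.comp (hsc.comp ((continuous_const.sub continuous_snd).prodMk hv.fst)))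
        (PS.continuous_ext' continuous_const (continuous_const.sub continuous_snd))
        continuous_snd continuous_const ?_
      rintro ⟨z, r⟩ (rfl : r = 2)
      dsimp only
      rw [sub_self, sc0, PS.ext'_of_ge _ (by norm_num), hh0]
    · rintro ⟨z, r⟩ (rfl : r = 1)
      dsimp only
      rw [if_pos one_le_two, PS.ext'_of_ge _ le_rfl, show (2 : ℝ) - 1 = 1 by norm_num, sc1]
      exact z.2
  have Γ1 : ∀ z r, r ≤ 1 → Γ (z, r) = z.1.2.ext' r := fun z r h => if_pos h
  have Γ2 : ∀ z r, 1 ≤ r → r ≤ 2 → Γ (z, r) = χ (sc (2 - r) z.1.1) := by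
    intro z r h1 h2
    rcases h1.eq_or_lt with rfl | h1
    · rw [Γ1 _ _ le_rfl, PS.ext'_of_ge _ le_rfl, show (2 : ℝ) - 1 = 1 by norm_num, sc1]
      exact z.2
    · simp only [Γ, if_neg h1.not_ge, if_pos h2]
  have Γ3 : ∀ z r, 2 ≤ r → Γ (z, r) = h0.ext' (3 - r) := by
    intro z r h
    rcases h.eq_or_lt with rfl | h
    · rw [Γ2 _ _ one_le_two le_rfl, sub_self, sc0, PS.ext'_of_ge _ (by norm_num), hh0]
    · simp only [Γ, if_neg (show ¬ r ≤ 1 by linarith), if_neg h.not_ge]
  let j : C(Path y0 y0, ZS y0 χ) := ⟨fun a => actZ (a, z0), by fun_prop⟩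
  have hωc : Continuous fun q : ZS y0 χ × I => Γ (q.1, 3 * q.2) := hΓ.comp (by fun_prop)
  let ω : C(ZS y0 χ, Path y0 y0) :=
    ⟨fun z => ⟨⟨fun u => Γ (z, 3 * u), hωc.comp (continuous_const.prodMk continuous_id)⟩,
      by simp only [Set.Icc.coe_zero, mul_zero]; rw [Γ1 _ _ zero_le_one, PS.ext'_of_le _ le_rfl],
      by simp only [Set.Icc.coe_one, mul_one]
         rw [Γ3 _ _ (by norm_num), sub_self, PS.ext'_of_le _ le_rfl]⟩,
      Path.continuous_uncurry_iff.1 hωc⟩
  have hω : ∀ z (u : I), ω z u = Γ (z, 3 * u) := fun _ _ => rfl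
  have hHc : Continuous fun q : (I × ZS y0 χ) × I =>
      Γ (q.1.2, (1 - q.1.1) * min (6 * (q.2 : ℝ)) (4 - 2 * q.2) + q.1.1 * q.2) :=
    hΓ.comp (by fun_prop)
  let Hp : I × ZS y0 χ → PS y0 := fun p =>
    ⟨⟨fun u => Γ (p.2, (1 - p.1) * min (6 * (u : ℝ)) (4 - 2 * u) + p.1 * u),
      hHc.comp (continuous_const.prodMk continuous_id)⟩, by
      change Γ (p.2, (1 - p.1) * min (6 * ((0 : I) : ℝ)) (4 - 2 * (0 : I)) + p.1 * (0 : I)) = y0
      rw [Set.Icc.coe_zero, min_eq_left (by norm_num)]
      simp only [mul_zero, add_zero]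
      rw [Γ1 _ _ zero_le_one, PS.ext'_of_le _ le_rfl]⟩
  have hHp : ∀ p : I × ZS y0 χ, (Hp p).e = χ (sc p.1 p.2.1.1) := by
    intro p
    change Γ (p.2, (1 - p.1) * min (6 * ((1 : I) : ℝ)) (4 - 2 * (1 : I)) + p.1 * (1 : I)) = _
    rw [Set.Icc.coe_one, min_eq_right (by norm_num),
      Γ2 _ _ (by linarith [p.1.2.2]) (by linarith [p.1.2.1])]
    congr 2
    ring
  let H : (j.comp ω).Homotopy (ContinuousMap.id _) :=
    { toFun := fun p => ⟨(sc p.1 p.2.1.1, Hp p), hHp p⟩
      continuous_toFun := ZS.continuous_of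
        (hsc.comp ((continuous_subtype_val.comp continuous_fst).prodMk
          (ZS.continuous_val.comp continuous_snd).fst)) (PS.continuous_of hHc)
      map_zero_left := by
        intro z
        refine Subtype.ext (Prod.ext ((sc0 _).trans hz0.symm) ?_)
        refine Subtype.ext (ContinuousMap.ext fun u => ?_)
        change Γ (z, (1 - ((0 : I) : ℝ)) * min (6 * (u : ℝ)) (4 - 2 * u) + (0 : I) * u) =
          (act (ω z) h0).1 u
        rw [Set.Icc.coe_zero, sub_zero, one_mul, zero_mul, add_zero, ← PS.ext'_coe]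
        rcases le_total (u : ℝ) (1 / 2) with h | h
        · rw [act_ext'_le _ _ h, min_eq_left (by linarith),
            Path.extend_apply _ ⟨by linarith [u.2.1], by linarith⟩, hω]
          congr 2
          dsimp only
          ring
        · rw [act_ext'_ge _ _ h, min_eq_right (by linarith), Γ3 _ _ (by linarith [u.2.2])]
          congr 1
          ring
      map_one_left := by
        intro z
        refine Subtype.ext (Prod.ext (sc1 _) ?_)
        refine Subtype.ext (ContinuousMap.ext fun u => ?_)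
        change Γ (z, (1 - ((1 : I) : ℝ)) * min (6 * (u : ℝ)) (4 - 2 * u) + (1 : I) * u) = z.1.2.1 u
        rw [Set.Icc.coe_one, sub_self, zero_mul, one_mul, zero_add, Γ1 _ _ u.2.2, PS.ext'_coe] }
  have hκc : Continuous fun q : I × I =>
      h0.ext' ((1 - q.1) * min (6 * (q.2 : ℝ) - 1) (3 - 3 * q.2)) :=
    PS.continuous_ext' continuous_const (by fun_prop)
  let κ : Path (ω (j (Path.refl y0))) (Path.refl y0) :=
    { toFun := fun s => ⟨⟨fun u => h0.ext' ((1 - s) * min (6 * (u : ℝ) - 1) (3 - 3 * u)),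
          hκc.comp (continuous_const.prodMk continuous_id)⟩,
        PS.ext'_of_le _ (mul_nonpos_of_nonneg_of_nonpos (by linarith [s.2.2])
          (min_le_of_left_le (by simp))),
        PS.ext'_of_le _ (mul_nonpos_of_nonneg_of_nonpos (by linarith [s.2.2])
          (min_le_of_right_le (by simp)))⟩
      continuous_toFun := Path.continuous_uncurry_iff.1 hκc
      source' := by
        ext u
        change h0.ext' ((1 - ((0 : I) : ℝ)) * min (6 * (u : ℝ) - 1) (3 - 3 * u)) =
          Γ (actZ (Path.refl y0, z0), 3 * u)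
        rw [Set.Icc.coe_zero, sub_zero, one_mul]
        rcases le_total (3 * (u : ℝ)) 1 with h | h
        · rw [Γ1 _ _ h, min_eq_left (by linarith)]
          change _ = (act (Path.refl y0) h0).ext' (3 * u)
          rcases le_total (3 * (u : ℝ)) (1 / 2) with h' | h'
          · rw [act_ext'_le _ _ h', PS.ext'_of_le _ (by linarith)]; simp
          · rw [act_ext'_ge _ _ h']
            congr 1
            ring
        · rcases le_total (3 * (u : ℝ)) 2 with h' | h'
          · rw [Γ2 _ _ h h', PS.ext'_of_ge _ (le_min (by linarith) (by linarith)), hh0]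
            change _ = χ (sc _ z0.1.1)
            rw [hz0, sc00]
          · rw [Γ3 _ _ h', min_eq_right (by linarith)]
      target' := by
        ext u
        change h0.ext' ((1 - ((1 : I) : ℝ)) * min (6 * (u : ℝ) - 1) (3 - 3 * u)) = y0
        rw [Set.Icc.coe_one, sub_self, zero_mul, PS.ext'_of_le _ le_rfl] }
  obtain ⟨a, ha⟩ := surj_of_right_inverse j ω H (Path.refl y0) κ b
  refine ⟨a, ?_⟩
  rw [← ha]
  obtain ⟨p, rfl⟩ := Path.Homotopic.Quotient.mk_surjective a
  rfl

/-- The obstruction of a square whose left side is degenerate. -/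
theorem cell_lemma (χ : C(I × I, Y)) {h0 h1 h2 : PS y0} (lb : Path h0 h1) (lr : Path h1 h2)
    (lt : Path h0 h2) (hb : ∀ x, (lb x).e = χ (x, 0)) (hr : ∀ y, (lr y).e = χ (1, y))
    (ht : ∀ x, (lt x).e = χ (x, 1)) (hl : ∀ y, h0.e = χ (0, y)) :
    ∃ o : pt (Path.refl y0) ⟶ pt (Path.refl y0),
      ∀ a01 a12 a02 : Path (Path.refl y0) (Path.refl y0),
        (FundamentalGroupoid.fromPath (.mk a01) ≫ FundamentalGroupoid.fromPath (.mk a12) =
          o ≫ FundamentalGroupoid.fromPath (.mk a02)) →
        ∃ Λ : C(I × I, PS y0), (∀ x, (Λ x).e = χ x) ∧ (∀ x, Λ (x, 0) = act (a01 x) (lb x)) ∧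
          (∀ y, Λ (1, y) = act (a12 y) (lr y)) ∧ (∀ x, Λ (x, 1) = act (a02 x) (lt x)) ∧
          ∀ y, Λ (0, y) = act (Path.refl y0) h0 := by
  let z00 : ZS y0 χ := ⟨((0, 0), h0), hl 0⟩
  let z01 : ZS y0 χ := ⟨((0, 1), h0), hl 1⟩
  let z10 : ZS y0 χ := ⟨((1, 0), h1), by rw [← hb 1, lb.target]⟩
  let z11 : ZS y0 χ := ⟨((1, 1), h2), by rw [← hr 1, lr.target]⟩
  let Lb : Path z00 z10 :=
    { toFun := fun x => ⟨((x, 0), lb x), hb x⟩
      continuous_toFun := ZS.continuous_of (by fun_prop) lb.continuous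
      source' := Subtype.ext (Prod.ext rfl lb.source)
      target' := Subtype.ext (Prod.ext rfl lb.target) }
  let Lr : Path z10 z11 :=
    { toFun := fun y => ⟨((1, y), lr y), hr y⟩
      continuous_toFun := ZS.continuous_of (by fun_prop) lr.continuous
      source' := Subtype.ext (Prod.ext rfl lr.source)
      target' := Subtype.ext (Prod.ext rfl lr.target) }
  let Lt : Path z01 z11 :=
    { toFun := fun x => ⟨((x, 1), lt x), ht x⟩
      continuous_toFun := ZS.continuous_of (by fun_prop) lt.continuous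
      source' := Subtype.ext (Prod.ext rfl lt.source)
      target' := Subtype.ext (Prod.ext rfl lt.target) }
  let Ll : Path z00 z01 :=
    { toFun := fun y => ⟨((0, y), h0), hl y⟩
      continuous_toFun := ZS.continuous_of (by fun_prop) continuous_const
      source' := rfl
      target' := rfl }
  obtain ⟨o, ho⟩ := cell_alg actZ (Path.refl y0) (z00 := z00) (z10 := z10) (z01 := z01)
    (z11 := z11) (.mk Lb) (.mk Lr) (.mk Ll) (.mk Lt) (actZ_surj z00 rfl)
  refine ⟨o, fun a01 a12 a02 h => ?_⟩
  have h1 := ho _ _ _ h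
  obtain ⟨F, F1, F2, F3, F4⟩ := exists_square ((a01.prod Lb).map actZ.continuous)
    ((a12.prod Lr).map actZ.continuous)
    (((Path.refl (Path.refl y0)).prod Ll).map actZ.continuous)
    ((a02.prod Lt).map actZ.continuous) (Quotient.exact h1)
  obtain ⟨Tr, hTc, hT1, hT2⟩ := exists_transport (y0 := y0) (χ := χ)
  refine ⟨⟨fun x => Tr (F x, x), hTc.comp (F.continuous.prodMk continuous_id)⟩,
    fun x => hT1 _ _, fun x => ?_, fun x => ?_, fun x => ?_, fun x => ?_⟩
  · change Tr (F (x, 0), (x, 0)) = _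
    rw [F1]; exact hT2 _
  · change Tr (F (1, x), (1, x)) = _
    rw [F2]; exact hT2 _
  · change Tr (F (x, 1), (x, 1)) = _
    rw [F4]; exact hT2 _
  · change Tr (F (0, x), (0, x)) = _
    rw [F3]; exact hT2 _

end Crest.Agent.Lib.CW2
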