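import Crest.Agent.Lib.CW2.Space
import Crest.Agent.Lib.CW2.Alg
import Crest.Agent.Lib.CW2.Obstr

/-! The Cayley complex of an aspherical triangular presentation is contractible. -/

set_option autoImplicit false

open CategoryTheory unitInterval

namespace Crest.Agent.Lib.CW2

local notation "pt" => FundamentalGroupoid.mk

theorem homotopic_of_square {W : Type} [TopologicalSpace W] {p q p' w : W} (b : Path p q)
    (r : Path q w) (l : Path p p') (t : Path p' w) (F : C(I × I, W)) (hb : ∀ x, F (x, 0) = b x)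
    (hr : ∀ y, F (1, y) = r y) (hl : ∀ y, F (0, y) = l y) (ht : ∀ x, F (x, 1) = t x) :
    (b.trans r).Homotopic (l.trans t) := by
  let p₁ : Path ((0, 0) : I × I) (1, 1) := .prod (.trans .id (.refl _)) (.trans (.refl _) .id)
  let p₂ : Path ((0, 0) : I × I) (1, 1) := .prod (.trans (.refl _) .id) (.trans .id (.refl _))
  let H : p₁.Homotopy p₂ :=
    Path.Homotopic.prodHomotopy (.trans (.transRefl _) (.symm <| .reflTrans _))
      (.trans (.reflTrans _) (.symm <| .transRefl _))
  refine ⟨⟨⟨⟨fun z => F (H z), F.continuous.comp H.continuous⟩, ?_, ?_⟩, ?_⟩⟩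
  · intro u
    change F (H (0, u)) = _
    rw [H.apply_zero]
    change F (((Path.id).trans (.refl 1)) u, ((Path.refl 0).trans .id) u) = (b.trans r) u
    simp only [Path.trans_apply]
    split_ifs
    · exact hb _
    · exact hr _
  · intro u
    change F (H (1, u)) = _
    rw [H.apply_one]
    change F (((Path.refl 0).trans .id) u, ((Path.id).trans (.refl 1)) u) = (l.trans t) u
    simp only [Path.trans_apply]
    split_ifs
    · exact hl _
    · exact ht _
  · rintro s u (rfl | rfl)
    · change F (H (s, 0)) = (b.trans r) 0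
      rw [H.source, hb, Path.source, Path.source]
    · change F (H (s, 1)) = (b.trans r) 1
      rw [H.target, hr, Path.target, Path.target]

variable {G : Type} [Group G] {S T : Type}

/-- an edge as a path -/
noncomputable def edgeP (P : TriData G S T) (g : G) (s : S) (g' : G) (h : g * P.of s = g') :
    Path (Pt.v g : Pt P) (Pt.v g') :=
  ⟨⟨edge P g s, continuous_edge g s⟩, edge_zero P g s, by rw [← h]; exact edge_one P g s⟩

theorem exists_vertex_paths (P : TriPres G S T) :
    ∃ h : ∀ g : G, Path (Pt.v 1 : Pt P.toTriData) (Pt.v g), ∀ g s,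
      ((h g).trans (edgeP P.toTriData g s _ rfl)).Homotopic (h (g * P.of s)) := by
  let E : ∀ (g : G) (s : S) (g' : G) (h : g * P.of s = g'),
      pt (Pt.v g : Pt P.toTriData) ⟶ pt (Pt.v g') := fun g s g' h =>
    Path.Homotopic.Quotient.mk (edgeP P.toTriData g s g' h)
  let X : Type := Σ g : G, (pt (Pt.v 1 : Pt P.toTriData) ⟶ pt (Pt.v g))
  let f : S → Equiv.Perm X := fun s => Equiv.sigmaCongr (Equiv.mulRight (P.of s)) fun g =>
    (Iso.homCongr (Iso.refl _) (asIso (E g s _ rfl)))
  have hf : ∀ s g γ g' (h : g * P.of s = g'), f s ⟨g, γ⟩ = ⟨g', γ ≫ E g s g' h⟩ := by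
    intro s g γ g' h
    subst h
    change (⟨g * P.of s, 𝟙 _ ≫ γ ≫ E g s _ rfl⟩ : X) = _
    rw [Category.id_comp]
  obtain ⟨sg, -, hsg, hs⟩ := P.exists_potential (X := X) Sigma.fst f (fun _ _ => rfl) (by
    rintro t ⟨g, γ⟩
    have h1 : g * P.of (P.d01 t) * P.of (P.d12 t) = g * P.of (P.d02 t) := by
      rw [mul_assoc, P.rel]
    rw [hf (P.d01 t) g γ _ rfl, hf _ _ _ _ h1, hf (P.d02 t) g γ _ rfl, Category.assoc]
    congr 2
    refine Quotient.sound ((homotopic_of_square _ _ (Path.refl _) (edgeP P.toTriData g _ _ rfl)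
      ⟨sq P.toTriData g t, continuous_sq g t⟩ (sq_bot _ g t) (sq_right _ g t) (sq_left _ g t)
      (sq_top _ g t)).trans ⟨Path.Homotopy.reflTrans _⟩)) ⟨1, 𝟙 _⟩ rfl
  have h1 : ∀ g, ∃ q : Path (Pt.v 1 : Pt P.toTriData) (Pt.v g),
      sg g = ⟨g, Path.Homotopic.Quotient.mk q⟩ := by
    intro g
    have h := hsg g
    generalize sg g = x at h
    obtain ⟨g', q⟩ := x
    subst h
    obtain ⟨q, rfl⟩ := Path.Homotopic.Quotient.mk_surjective q
    exact ⟨q, rfl⟩
  choose h hh using h1
  refine ⟨h, fun g s => ?_⟩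
  have h2 := hs g s
  rw [hh, hh, hf _ _ _ _ rfl] at h2
  exact Quotient.exact (eq_of_heq (Sigma.mk.inj h2).2)

theorem TriPres.contractible [Finite S] [Finite T] (P : TriPres G S T)
    (hinj : Function.Injective P.toTriData.bd) : ContractibleSpace (Pt P.toTriData) := by
  let y0 : Pt P.toTriData := Pt.v 1
  obtain ⟨h, hh⟩ := exists_vertex_paths P
  let hp : G → PS y0 := fun g => ⟨(h g).toContinuousMap, (h g).source⟩
  have hl : ∀ g s, ∃ l : Path (hp g) (hp (g * P.of s)),
      ∀ x, (l x).e = edge P.toTriData g s x := by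
    intro g s
    obtain ⟨F, F1, F2, F3, F4⟩ := exists_square (Path.refl y0) (h (g * P.of s)) (h g)
      (edgeP P.toTriData g s _ rfl)
      (Path.Homotopic.trans ⟨Path.Homotopy.reflTrans _⟩ (hh g s).symm)
    exact ⟨⟨⟨fun x => ⟨F.curry x, F1 x⟩, PS.continuous_of F.continuous⟩,
      Subtype.ext (ContinuousMap.ext F3), Subtype.ext (ContinuousMap.ext F2)⟩, F4⟩
  choose l hl using hl
  have hrel : ∀ g t, hp (g * P.of (P.d02 t)) = hp (g * P.of (P.d01 t) * P.of (P.d12 t)) := by
    intro g t
    rw [mul_assoc, P.rel]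
  have hcell := fun c : G × T => cell_lemma (y0 := y0) ⟨sq P.toTriData c.1 c.2, continuous_sq _ _⟩
    (l c.1 (P.d01 c.2)) ((l (c.1 * P.of (P.d01 c.2)) (P.d12 c.2)).cast rfl (hrel c.1 c.2))
    (l c.1 (P.d02 c.2)) (fun x => (hl _ _ x).trans (sq_bot _ _ _ x).symm)
    (fun x => (hl _ _ x).trans (sq_right _ _ _ x).symm)
    (fun x => (hl _ _ x).trans (sq_top _ _ _ x).symm)
    (fun y => (h c.1).target.trans (sq_left _ _ _ y).symm)
  choose o ho using hcell
  have hcomm : ∀ a b : pt (Path.refl y0) ⟶ pt (Path.refl y0), a ≫ b = b ≫ a :=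
    hspace_comm (Ω := Path y0 y0)
  let _ : CommGroup (FundamentalGroup (Path y0 y0) (Path.refl y0)) :=
    { (inferInstance : Group (FundamentalGroup (Path y0 y0) (Path.refl y0))) with
      mul_comm := fun a b => hcomm b a }
  obtain ⟨a, ha⟩ := P.exists_cochain hinj (FundamentalGroup (Path y0 y0) (Path.refl y0)) o
  choose α hα using fun e => Path.Homotopic.Quotient.mk_surjective (a e)
  have hΛ := fun c : G × T => ho c (α (c.1, P.d01 c.2)) (α (c.1 * P.of (P.d01 c.2), P.d12 c.2))
    (α (c.1, P.d02 c.2)) (by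
      rw [hα, hα, hα, hcomm, hcomm (o c)]
      exact ha c.1 c.2)
  choose Λ Λe Λb Λr Λt Λl using hΛ
  let D : Glue P.toTriData (PS y0) :=
    { fv := fun g => act (Path.refl y0) (hp g)
      fe := fun g s x => act (α (g, s) x) (l g s x)
      ft := fun g t => Λ (g, t)
      e0 := fun g s => by rw [Path.source, Path.source]
      e1 := fun g s => by rw [Path.target, Path.target]
      tl := fun g t => Λl (g, t)
      tb := fun g t => Λb (g, t)
      tt := fun g t => Λt (g, t)
      tr := fun g t => Λr (g, t) }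
  have hD : Continuous D.fn := D.continuous
    (fun g s => continuous_act.comp ((α (g, s)).continuous.prodMk (l g s).continuous))
    fun g t => (Λ (g, t)).continuous
  have hDe : ∀ x, (D.fn x).e = x := by
    rintro (g | ⟨g, s, u⟩ | ⟨g, t, x, y⟩)
    · exact (act_e _ _).trans (h g).target
    · exact (act_e _ _).trans ((hl g s u).trans (edge_in _ _ _ _))
    · exact (Λe (g, t) _).trans (sq_in _ _ _ _ _)
  refine (contractible_iff_id_nullhomotopic _).2 ⟨y0, ContinuousMap.Homotopic.symm ⟨?_⟩⟩
  exact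
    { toFun := fun p => (D.fn p.2).1 p.1
      continuous_toFun := PS.continuous_ev.comp ((hD.comp continuous_snd).prodMk continuous_fst)
      map_zero_left := fun x => (D.fn x).2
      map_one_left := hDe }

end Crest.Agent.Lib.CW2
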