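import Crest.Agent.Lib.CW2.Space

/-! The Cayley complex covers the presentation complex. -/

set_option autoImplicit false

open unitInterval Set

namespace Crest.Agent.Lib.CW2

variable {G : Type} [Group G] {S T : Type} {P : TriData G S T}

instance : MulAction G (Pt P) where
  smul h x := match x with
    | .v g => .v (h * g)
    | .e g s u => .e (h * g) s u
    | .t g t x y => .t (h * g) t x y
  one_smul x := by
    rcases x with g | ⟨g, s, u⟩ | ⟨g, t, x, y⟩
    · exact congrArg Pt.v (one_mul g)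
    · exact congrArg (Pt.e · s u) (one_mul g)
    · exact congrArg (Pt.t · t x y) (one_mul g)
  mul_smul a b x := by
    rcases x with g | ⟨g, s, u⟩ | ⟨g, t, x, y⟩
    · exact congrArg Pt.v (mul_assoc a b g)
    · exact congrArg (Pt.e · s u) (mul_assoc a b g)
    · exact congrArg (Pt.t · t x y) (mul_assoc a b g)

theorem smul_v (h g : G) : h • (Pt.v g : Pt P) = .v (h * g) := rfl
theorem smul_e (h g : G) (s : S) (u : OI) : h • (Pt.e g s u : Pt P) = .e (h * g) s u := rfl
theorem smul_t (h g : G) (t : T) (x y : OI) : h • (Pt.t g t x y : Pt P) = .t (h * g) t x y := rfl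

theorem smul_edge (h g : G) (s : S) (u : I) : h • edge P g s u = edge P (h * g) s u := by
  rcases unit_cases u with rfl | rfl | ⟨w, rfl⟩
  · rw [edge_zero, edge_zero, smul_v]
  · rw [edge_one, edge_one, smul_v, mul_assoc]
  · rw [edge_in, edge_in, smul_e]

theorem smul_sq (h g : G) (t : T) (p : I × I) : h • sq P g t p = sq P (h * g) t p := by
  obtain ⟨x, y⟩ := p
  rcases unit_cases x with rfl | rfl | ⟨x, rfl⟩
  · rw [sq_left, sq_left, smul_v]
  · rw [sq_right, sq_right, smul_edge, mul_assoc]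
  · rcases unit_cases y with rfl | rfl | ⟨y, rfl⟩
    · rw [sq_bot, sq_bot, smul_edge]
    · rw [sq_top, sq_top, smul_edge]
    · rw [sq_in, sq_in, smul_t]

instance [Finite S] [Finite T] : ContinuousConstSMul G (Pt P) where
  continuous_const_smul h := continuous_of_edge_sq
    (fun g s => (continuous_edge (h * g) s).congr fun u => (smul_edge h g s u).symm)
    fun g t => (continuous_sq (h * g) t).congr fun u => (smul_sq h g t u).symm

theorem eq_one_of_smul_eq {h : G} {x : Pt P} (e : h • x = x) : h = 1 := by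
  rcases x with g | ⟨g, s, u⟩ | ⟨g, t, x, y⟩
  · exact mul_eq_right.1 (Pt.v.inj e)
  · exact mul_eq_right.1 (Pt.e.inj e).1
  · exact mul_eq_right.1 (Pt.t.inj e).1

theorem wgt_smul (h : G) (x : Pt P) (k : G) : wgt (h • x) (h * k) = wgt x k := by
  have e : ∀ a b : G, (h * a = h * b) = (a = b) := fun a b => propext (mul_right_inj h)
  obtain ⟨⟨g, _ | s | t⟩, p, rfl⟩ := exists_cell x
  · rw [cell, smul_v, wgt_v, wgt_v, e]
  · rw [cell, smul_edge, wgt_edge, wgt_edge, mul_assoc h, e, e]
  · rw [cell, smul_sq, wgt_sq, wgt_sq, mul_assoc h, mul_assoc h, e, e, e]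

theorem exists_nhds_disjoint [Finite S] [Finite T] (x : Pt P) :
    ∃ U ∈ nhds x, ∀ g : G, ((g • ·) '' U ∩ U).Nonempty → g = 1 := by
  obtain ⟨k, hk⟩ := exists_wgt x
  have hB := (finite_range P.of).insert 1
  let F : Set G := image2 (fun b b' => k * b⁻¹ * b' * k⁻¹) (insert 1 (range P.of))
    (insert 1 (range P.of))
  have hF : F.Finite := hB.image2 _ hB
  have hsep : ∀ g : G, ∃ V ∈ nhds x, g⁻¹ ≠ 1 → ∀ y ∈ V, g⁻¹ • y ∉ V := by
    intro g
    by_cases hg : g⁻¹ = 1
    · exact ⟨univ, Filter.univ_mem, fun h => absurd hg h⟩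
    · obtain ⟨A, B, hA, hB, hxA, hxB, hAB⟩ :=
        t2_separation (fun e => hg (eq_one_of_smul_eq e) : g⁻¹ • x ≠ x)
      refine ⟨B ∩ (g⁻¹ • ·) ⁻¹' A, Filter.inter_mem (hB.mem_nhds hxB)
        ((hA.preimage (continuous_const_smul _)).mem_nhds hxA), fun _ y hy hy' => ?_⟩
      exact disjoint_left.1 hAB hy.2 hy'.1
  choose V hV hV' using hsep
  refine ⟨{y | wgt y k ≠ 0} ∩ ⋂ g ∈ F, V g,
    Filter.inter_mem (wgt_nhds hk) ((Filter.biInter_mem hF).2 fun g _ => hV g), ?_⟩
  rintro g ⟨_, ⟨y, hy, rfl⟩, hgy⟩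
  by_contra hg
  obtain ⟨c, p, rfl⟩ := exists_cell y
  have h1 : wgt (cell P c p) (g⁻¹ * k) ≠ 0 := by
    rw [← wgt_smul g, mul_inv_cancel_left]; exact hgy.1
  have h2 : g⁻¹ ∈ F := ⟨_, wgt_cell hy.1, _, wgt_cell h1, by group⟩
  have h3 := hV' g⁻¹ (by rwa [inv_inv]) _ (mem_iInter₂.1 hy.2 _ h2)
  rw [inv_inv] at h3
  exact h3 (mem_iInter₂.1 hgy.2 _ h2)

/-- the same triangles over the trivial group -/
def TriData.triv (P : TriData G S T) : TriData Unit S T where
  of _ := 1
  d01 := P.d01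
  d12 := P.d12
  d02 := P.d02
  rel _ := rfl

/-- the projection to the presentation complex -/
def proj : Pt P → Pt P.triv
  | .v _ => .v 1
  | .e _ s u => .e 1 s u
  | .t _ t x y => .t 1 t x y

theorem proj_edge (g : G) (s : S) (u : I) : proj (edge P g s u) = edge P.triv 1 s u := by
  rcases unit_cases u with rfl | rfl | ⟨w, rfl⟩
  · rw [edge_zero, edge_zero]; rfl
  · rw [edge_one, edge_one]; rfl
  · rw [edge_in, edge_in]; rfl

theorem proj_sq (g : G) (t : T) (p : I × I) : proj (sq P g t p) = sq P.triv 1 t p := by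
  obtain ⟨x, y⟩ := p
  rcases unit_cases x with rfl | rfl | ⟨x, rfl⟩
  · rw [sq_left, sq_left]; rfl
  · rw [sq_right, sq_right, proj_edge]; rfl
  · rcases unit_cases y with rfl | rfl | ⟨y, rfl⟩
    · rw [sq_bot, sq_bot, proj_edge]; rfl
    · rw [sq_top, sq_top, proj_edge]; rfl
    · rw [sq_in, sq_in]; rfl

theorem proj_surjective : Function.Surjective (proj : Pt P → Pt P.triv) := by
  rintro (g | ⟨g, s, u⟩ | ⟨g, t, x, y⟩)
  · exact ⟨.v 1, rfl⟩
  · exact ⟨.e 1 s u, rfl⟩
  · exact ⟨.t 1 t x y, rfl⟩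

theorem isQuotientCoveringMap_proj [Finite S] [Finite T] :
    IsQuotientCoveringMap (proj : Pt P → Pt P.triv) G where
  toIsQuotientMap := by
    have hc : Continuous (proj : Pt P → Pt P.triv) := continuous_of_edge_sq
      (fun g s => (continuous_edge 1 s).congr fun u => (proj_edge g s u).symm)
      fun g t => (continuous_sq 1 t).congr fun u => (proj_sq g t u).symm
    refine ⟨Topology.isCoinducing_iff.2 fun U => ⟨fun h => ?_, fun h => h.preimage hc⟩,
      proj_surjective⟩
    have h1 : Continuous fun x : Pt P => proj x ∈ U := continuous_Prop.2 h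
    refine continuous_Prop.1 (continuous_of_edge_sq (f := fun x => x ∈ U) (fun _ s => ?_)
      fun _ t => ?_)
    · exact (h1.comp (continuous_edge 1 s)).congr fun u => by
        simp only [Function.comp_apply, proj_edge]
    · exact (h1.comp (continuous_sq 1 t)).congr fun u => by
        simp only [Function.comp_apply, proj_sq]
  toContinuousConstSMul := inferInstance
  apply_eq_iff_mem_orbit := by
    intro a b
    constructor
    · intro h
      rcases a with g | ⟨g, s, u⟩ | ⟨g, t, x, y⟩ <;>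
        rcases b with g' | ⟨g', s', u'⟩ | ⟨g', t', x', y'⟩ <;> cases h <;>
        refine ⟨g * g'⁻¹, ?_⟩ <;> simp [smul_v, smul_e, smul_t]
    · rintro ⟨g, rfl⟩
      rcases b with g' | ⟨g', s', u'⟩ | ⟨g', t', x', y'⟩ <;> rfl
  disjoint := exists_nhds_disjoint

end Crest.Agent.Lib.CW2
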