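import Mathlib

/-!
# Triangular presentations

`TriPres G S T` presents the group `G` by generators `S` and one relation
`d01 t * d12 t = d02 t` for every `t : T`. The Cayley 2-complex has vertices `G`, edges `G × S`
(`(g, s)` goes from `g` to `g * of s`) and triangles `G × T`; `TriPres.bd` is its boundary map
from 2-chains to 1-chains.
-/

set_option autoImplicit false

namespace Crest.Agent.Lib.CW2

/-- generators, triangles and a map of the generators to `G` respecting the triangles -/
structure TriData (G : Type) [Group G] (S T : Type) where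
  of : S → G
  d01 : T → S
  d12 : T → S
  d02 : T → S
  rel : ∀ t, of (d01 t) * of (d12 t) = of (d02 t)

/-- `G = ⟨S | d01 t * d12 t = d02 t⟩` through its universal property -/
structure TriPres (G : Type) [Group G] (S T : Type) extends TriData G S T where
  gen : Subgroup.closure (Set.range of) = ⊤
  lift : ∀ (H : Type) [Group H] (f : S → H), (∀ t, f (d01 t) * f (d12 t) = f (d02 t)) →
    ∃ φ : G →* H, ∀ s, φ (of s) = f s

variable {G : Type} [Group G] {S T : Type}

/-- the boundary of the triangle `(g, t)` -/
noncomputable def TriData.bdT (P : TriData G S T) (p : G × T) : G × S →₀ ℤ :=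
  Finsupp.single (p.1, P.d01 p.2) 1 + Finsupp.single (p.1 * P.of (P.d01 p.2), P.d12 p.2) 1 -
    Finsupp.single (p.1, P.d02 p.2) 1

/-- the boundary map from 2-chains to 1-chains of the Cayley complex -/
noncomputable def TriData.bd (P : TriData G S T) : (G × T →₀ ℤ) →ₗ[ℤ] (G × S →₀ ℤ) :=
  Finsupp.linearCombination ℤ P.bdT

theorem TriData.bd_single (P : TriData G S T) (p : G × T) (n : ℤ) :
    P.bd (Finsupp.single p n) = n • P.bdT p := by
  simp [TriData.bd]

/-- the relators of the triangular presentation -/
def triRels (d01 d12 d02 : T → S) : Set (FreeGroup S) :=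
  Set.range fun t => FreeGroup.of (d01 t) * FreeGroup.of (d12 t) * (FreeGroup.of (d02 t))⁻¹

/-- the concrete presented group carries a `TriPres` -/
def TriPres.presented (d01 d12 d02 : T → S) :
    TriPres (PresentedGroup (triRels d01 d12 d02)) S T where
  of := PresentedGroup.of
  d01 := d01
  d12 := d12
  d02 := d02
  rel t := by
    rw [← mul_inv_eq_one]
    exact PresentedGroup.one_of_mem (rels := triRels d01 d12 d02) ⟨t, rfl⟩
  gen := PresentedGroup.closure_range_of _
  lift H _ f hf := by
    refine ⟨PresentedGroup.toGroup (f := f) ?_, fun s => PresentedGroup.toGroup.of _⟩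
    rintro _ ⟨t, rfl⟩
    simp [hf t]

end Crest.Agent.Lib.CW2
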