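import Mathlib

/-! Fundamental groupoid lemmas and the filling of a square with null-homotopic boundary. -/

set_option autoImplicit false

open CategoryTheory unitInterval

namespace Crest.Agent.Lib.CW2

section Alg

variable {Ω Z W : Type} [TopologicalSpace Ω] [TopologicalSpace Z] [TopologicalSpace W]

local notation "pt" => FundamentalGroupoid.mk

/-- the image of a path class -/
noncomputable def qm (f : C(Ω, Z)) {x x' : Ω} (a : pt x ⟶ pt x') : pt (f x) ⟶ pt (f x') :=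
  Path.Homotopic.Quotient.map a f

theorem qm_comp (f : C(Ω, Z)) {x x' x'' : Ω} (a : pt x ⟶ pt x') (a' : pt x' ⟶ pt x'') :
    qm f (a ≫ a') = qm f a ≫ qm f a' :=
  (FundamentalGroupoid.map f).map_comp a a'

theorem qm_id (f : C(Ω, Z)) (x : Ω) : qm f (𝟙 (pt x)) = 𝟙 _ := rfl

theorem qm_inv (f : C(Ω, Z)) {x x' : Ω} (a : pt x ⟶ pt x') : qm f (inv a) = inv (qm f a) := by
  apply IsIso.eq_inv_of_hom_inv_id
  rw [← qm_comp, IsIso.hom_inv_id, qm_id]

/-- the product of two path classes -/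
noncomputable def qp {x x' : Ω} {z z' : Z} (a : pt x ⟶ pt x') (L : pt z ⟶ pt z') :
    pt (x, z) ⟶ pt (x', z') := Path.Homotopic.prod a L

/-- the image of a pair of path classes under a map of two variables -/
noncomputable def mp (m : C(Ω × Z, W)) {x x' : Ω} {z z' : Z} (a : pt x ⟶ pt x') (L : pt z ⟶ pt z') :
    pt (m (x, z)) ⟶ pt (m (x', z')) := qm m (qp a L)

theorem mp_comp (m : C(Ω × Z, W)) {x x' x'' : Ω} {z z' z'' : Z} (a : pt x ⟶ pt x')
    (a' : pt x' ⟶ pt x'') (L : pt z ⟶ pt z') (L' : pt z' ⟶ pt z'') :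
    mp m (a ≫ a') (L ≫ L') = mp m a L ≫ mp m a' L' := by
  unfold mp
  rw [← qm_comp]
  exact congrArg _ (Path.Homotopic.comp_prod_eq_prod_comp a L a' L').symm

theorem mp_mk (m : C(Ω × Z, W)) {x x' : Ω} {z z' : Z} (a : Path x x') (L : Path z z') :
    mp m (x := x) (x' := x') (z := z) (z' := z') (Path.Homotopic.Quotient.mk a)
      (Path.Homotopic.Quotient.mk L) =
      Path.Homotopic.Quotient.mk ((a.prod L).map m.continuous) := rfl

theorem cell_alg (m : C(Ω × Z, W)) (c : Ω) {z00 z10 z01 z11 : Z} (Lb : pt z00 ⟶ pt z10)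
    (Lr : pt z10 ⟶ pt z11) (Ll : pt z00 ⟶ pt z01) (Lt : pt z01 ⟶ pt z11)
    (hsurj : ∀ b : pt (m (c, z00)) ⟶ pt (m (c, z00)), ∃ a : pt c ⟶ pt c, mp m a (𝟙 _) = b) :
    ∃ o : pt c ⟶ pt c, ∀ a01 a12 a02 : pt c ⟶ pt c, a01 ≫ a12 = o ≫ a02 →
      mp m a01 Lb ≫ mp m a12 Lr = mp m (𝟙 _) Ll ≫ mp m a02 Lt := by
  obtain ⟨o, ho⟩ := hsurj (mp m (𝟙 _) ((Ll ≫ Lt) ≫ inv (Lb ≫ Lr)))
  refine ⟨o, fun a01 a12 a02 h => ?_⟩
  rw [← mp_comp, ← mp_comp, h, ← Category.id_comp (Lb ≫ Lr), mp_comp, ho, ← mp_comp]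
  simp

theorem surj_of_right_inverse (j : C(Ω, Z)) (ω : C(Z, Ω))
    (H : (j.comp ω).Homotopy (ContinuousMap.id Z)) (c : Ω) (κ : Path (ω (j c)) c)
    (b : pt (j c) ⟶ pt (j c)) :
    ∃ a : pt c ⟶ pt c, qm j a = b := by
  let η : pt (j (ω (j c))) ⟶ pt (j c) := Path.Homotopic.Quotient.mk (H.evalAt (j c))
  let k : pt (ω (j c)) ⟶ pt c := Path.Homotopic.Quotient.mk κ
  let jk : pt (j (ω (j c))) ⟶ pt (j c) := qm j k
  have hnat : ∀ b' : pt (j c) ⟶ pt (j c),
      qm j (qm ω b') ≫ η = η ≫ b' := by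
    intro b'
    obtain ⟨p, rfl⟩ := Path.Homotopic.Quotient.mk_surjective b'
    exact Quotient.sound (Path.Homotopic.map_trans_evalAt H p)
  refine ⟨inv k ≫ qm ω (inv η ≫ jk ≫ b ≫ inv jk ≫ η) ≫ k, ?_⟩
  rw [qm_comp, qm_comp, qm_inv, (IsIso.eq_comp_inv η).2 (hnat _)]
  change inv jk ≫ ((η ≫ inv η ≫ jk ≫ b ≫ inv jk ≫ η) ≫ inv η) ≫ jk = b
  simp

/-- the fundamental group of an H-space is commutative -/
theorem hspace_comm [HSpace Ω] (a b : pt (HSpace.e : Ω) ⟶ pt (HSpace.e : Ω)) : a ≫ b = b ≫ a := by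
  have he : HSpace.hmul ((HSpace.e : Ω), (HSpace.e : Ω)) = HSpace.e := HSpace.hmul_e_e
  have h1 : ∀ a : pt (HSpace.e : Ω) ⟶ pt (HSpace.e : Ω),
      Path.Homotopic.Quotient.cast (mp HSpace.hmul a (𝟙 (pt (HSpace.e : Ω)))) he.symm he.symm = a := by
    intro a
    obtain ⟨p, rfl⟩ := Path.Homotopic.Quotient.mk_surjective a
    refine Quotient.sound ⟨⟨⟨⟨fun q => HSpace.hmulE (q.1, p q.2), by fun_prop⟩, ?_, ?_⟩, ?_⟩⟩
    · intro x; simp
    · intro x; simp
    · rintro t x (rfl | rfl)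
      · simp only [ContinuousMap.coe_mk, Path.source]
        rw [HSpace.hmulE.eq_fst t (Set.mem_singleton _)]
        simpa using he
      · simp only [ContinuousMap.coe_mk, Path.target]
        rw [HSpace.hmulE.eq_fst t (Set.mem_singleton _)]
        simpa using he
  have h2 : ∀ a : pt (HSpace.e : Ω) ⟶ pt (HSpace.e : Ω),
      Path.Homotopic.Quotient.cast (mp HSpace.hmul (𝟙 (pt (HSpace.e : Ω))) a) he.symm he.symm = a := by
    intro a
    obtain ⟨p, rfl⟩ := Path.Homotopic.Quotient.mk_surjective a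
    refine Quotient.sound ⟨⟨⟨⟨fun q => HSpace.eHmul (q.1, p q.2), by fun_prop⟩, ?_, ?_⟩, ?_⟩⟩
    · intro x; simp
    · intro x; simp
    · rintro t x (rfl | rfl)
      · simp only [ContinuousMap.coe_mk, Path.source]
        rw [HSpace.eHmul.eq_fst t (Set.mem_singleton _)]
        simpa using he
      · simp only [ContinuousMap.coe_mk, Path.target]
        rw [HSpace.eHmul.eq_fst t (Set.mem_singleton _)]
        simpa using he
  have h3 : ∀ {x y : Ω} (h : x = y) (u v : pt y ⟶ pt y),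
      Path.Homotopic.Quotient.cast (u ≫ v) h h =
        (Path.Homotopic.Quotient.cast u h h).trans (Path.Homotopic.Quotient.cast v h h) := by
    intro x y h u v
    subst h
    simp only [Path.Homotopic.Quotient.cast_rfl_rfl]
    rfl
  have h4 : mp HSpace.hmul a (𝟙 (pt (HSpace.e : Ω))) ≫ mp HSpace.hmul (𝟙 (pt (HSpace.e : Ω))) b =
      mp HSpace.hmul (𝟙 (pt (HSpace.e : Ω))) b ≫ mp HSpace.hmul a (𝟙 (pt (HSpace.e : Ω))) := by
    rw [← mp_comp, ← mp_comp]; simp
  have h5 := congrArg (fun u => Path.Homotopic.Quotient.cast u he.symm he.symm) h4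
  simp only [h3, h1, h2] at h5
  exact h5

end Alg

section Square

variable {W : Type} [TopologicalSpace W]

/-- the parametrisation of the square by the straight homotopy between its two boundary paths -/
noncomputable def sqPar (p : I × I) : I × I :=
  (Set.projIcc 0 1 zero_le_one (p.2 + (1 - 2 * p.1) * min (p.2 : ℝ) (1 - p.2)),
    Set.projIcc 0 1 zero_le_one (p.2 - (1 - 2 * p.1) * min (p.2 : ℝ) (1 - p.2)))

theorem continuous_sqPar : Continuous sqPar := by
  unfold sqPar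
  refine Continuous.prodMk ?_ ?_ <;> refine continuous_projIcc.comp ?_ <;> fun_prop

theorem sqPar_coe (p : I × I) :
    ((sqPar p).1 : ℝ) = p.2 + (1 - 2 * p.1) * min (p.2 : ℝ) (1 - p.2) ∧
      ((sqPar p).2 : ℝ) = p.2 - (1 - 2 * p.1) * min (p.2 : ℝ) (1 - p.2) := by
  obtain ⟨⟨s, hs0, hs1⟩, ⟨u, hu0, hu1⟩⟩ := p
  have h1 : min u (1 - u) ≤ u := min_le_left _ _
  have h2 : min u (1 - u) ≤ 1 - u := min_le_right _ _
  have h3 : 0 ≤ min u (1 - u) := le_min hu0 (by linarith)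
  constructor
  · refine congrArg Subtype.val (Set.projIcc_of_mem zero_le_one ⟨?_, ?_⟩) <;> dsimp only <;> nlinarith
  · refine congrArg Subtype.val (Set.projIcc_of_mem zero_le_one ⟨?_, ?_⟩) <;> dsimp only <;> nlinarith

theorem sqPar_eq {p q : I × I} (h1 : (q.1 : ℝ) = p.2 + (1 - 2 * p.1) * min (p.2 : ℝ) (1 - p.2))
    (h2 : (q.2 : ℝ) = p.2 - (1 - 2 * p.1) * min (p.2 : ℝ) (1 - p.2)) : sqPar p = q :=
  Prod.ext (Subtype.ext ((sqPar_coe p).1.trans h1.symm))
    (Subtype.ext ((sqPar_coe p).2.trans h2.symm))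

theorem sqPar_surjective : Function.Surjective sqPar := by
  rintro ⟨⟨x, hx0, hx1⟩, ⟨y, hy0, hy1⟩⟩
  set u := (x + y) / 2 with hu
  set d := min u (1 - u) with hd
  have hd1 : (x - y) / 2 ≤ d := le_min (by linarith) (by linarith)
  have hd2 : -((x - y) / 2) ≤ d := le_min (by linarith) (by linarith)
  have hum : u ∈ I := ⟨by linarith, by linarith⟩
  rcases (show 0 ≤ d by linarith).eq_or_lt with h | h
  · refine ⟨(0, ⟨u, hum⟩), sqPar_eq ?_ ?_⟩ <;> dsimp only <;> rw [← hd, ← h] <;> linarith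
  · have h3 : (x - y) / 2 / d ≤ 1 := (div_le_one h).2 hd1
    have h4 : -1 ≤ (x - y) / 2 / d := by rw [le_div_iff₀ h]; linarith
    have h5 : (1 - 2 * ((1 - (x - y) / 2 / d) / 2)) * d = (x - y) / 2 := by field_simp; ring
    refine ⟨(⟨(1 - (x - y) / 2 / d) / 2, by constructor <;> linarith⟩, ⟨u, hum⟩),
      sqPar_eq ?_ ?_⟩ <;> dsimp only <;> rw [← hd, h5] <;> linarith

theorem exists_square {p q p' w : W} (b : Path p q) (r : Path q w) (l : Path p p') (t : Path p' w)
    (h : (b.trans r).Homotopic (l.trans t)) :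
    ∃ F : C(I × I, W), (∀ x, F (x, 0) = b x) ∧ (∀ y, F (1, y) = r y) ∧ (∀ y, F (0, y) = l y) ∧
      ∀ x, F (x, 1) = t x := by
  obtain ⟨H⟩ := h
  have hq : Topology.IsQuotientMap sqPar :=
    (continuous_sqPar.isClosedMap).isQuotientMap continuous_sqPar sqPar_surjective
  have hfib : ∀ a a', sqPar a = sqPar a' → H a = H a' := by
    rintro ⟨s, u⟩ ⟨s', u'⟩ e
    have e1 := (sqPar_coe (s, u)).1
    have e2 := (sqPar_coe (s, u)).2
    rw [e, (sqPar_coe (s', u')).1] at e1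
    rw [e, (sqPar_coe (s', u')).2] at e2
    dsimp only at e1 e2
    obtain rfl : u = u' := Subtype.ext (by linarith)
    have e3 : ((s : ℝ) - s') * min (u : ℝ) (1 - u) = 0 := by linarith
    rcases mul_eq_zero.1 e3 with e4 | e4
    · rw [show s = s' from Subtype.ext (by linarith)]
    · rcases min_eq_iff.1 e4 with ⟨e5, -⟩ | ⟨e5, -⟩
      · rw [show u = 0 from Subtype.ext e5, H.source, H.source]
      · rw [show u = 1 from Subtype.ext (by simp only [Set.Icc.coe_one]; linarith), H.target,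
          H.target]
  let F : I × I → W := fun x => H (Function.surjInv sqPar_surjective x)
  have hF : ∀ a, F (sqPar a) = H a := fun a => hfib _ _ (Function.surjInv_eq _ _)
  have hFc : Continuous F := by
    rw [hq.continuous_iff]
    exact H.continuous.congr fun a => (hF a).symm
  have hlo : ∀ x : I, (x : ℝ) / 2 ∈ I := fun x =>
    ⟨by linarith [x.2.1], by linarith [x.2.2]⟩
  have hhi : ∀ x : I, (1 + (x : ℝ)) / 2 ∈ I := fun x =>
    ⟨by linarith [x.2.1], by linarith [x.2.2]⟩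
  have mlo : ∀ x : I, min ((x : ℝ) / 2) (1 - x / 2) = x / 2 := fun x =>
    min_eq_left (by linarith [x.2.2])
  have mhi : ∀ x : I, min ((1 + (x : ℝ)) / 2) (1 - (1 + x) / 2) = 1 - (1 + x) / 2 := fun x =>
    min_eq_right (by linarith [x.2.1])
  have tlo : ∀ {a b c : W} (f : Path a b) (g : Path b c) (x : I),
      f.trans g ⟨x / 2, hlo x⟩ = f x := by
    intro a b c f g x
    rw [← Path.extend_extends', Path.extend_trans_of_le_half _ _ (by linarith [x.2.2])]
    dsimp only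
    rw [mul_div_cancel₀ _ two_ne_zero, Path.extend_extends']
  have thi : ∀ {a b c : W} (f : Path a b) (g : Path b c) (x : I),
      f.trans g ⟨(1 + x) / 2, hhi x⟩ = g x := by
    intro a b c f g x
    rw [← Path.extend_extends', Path.extend_trans_of_half_le _ _ (by linarith [x.2.1])]
    dsimp only
    rw [mul_div_cancel₀ _ two_ne_zero, add_sub_cancel_left, Path.extend_extends']
  refine ⟨⟨F, hFc⟩, fun x => ?_, fun x => ?_, fun x => ?_, fun x => ?_⟩
  · have : sqPar (0, ⟨x / 2, hlo x⟩) = (x, 0) := by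
      refine sqPar_eq ?_ ?_ <;> simp only [mlo, Set.Icc.coe_zero] <;> ring
    rw [ContinuousMap.coe_mk, ← this, hF, H.apply_zero]
    exact tlo b r x
  · have : sqPar (0, ⟨(1 + x) / 2, hhi x⟩) = (1, x) := by
      refine sqPar_eq ?_ ?_ <;> simp only [mhi, Set.Icc.coe_zero, Set.Icc.coe_one] <;> ring
    rw [ContinuousMap.coe_mk, ← this, hF, H.apply_zero]
    exact thi b r x
  · have : sqPar (1, ⟨x / 2, hlo x⟩) = (0, x) := by
      refine sqPar_eq ?_ ?_ <;> simp only [mlo, Set.Icc.coe_zero, Set.Icc.coe_one] <;> ring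
    rw [ContinuousMap.coe_mk, ← this, hF, H.apply_one]
    exact tlo l t x
  · have : sqPar (1, ⟨(1 + x) / 2, hhi x⟩) = (x, 1) := by
      refine sqPar_eq ?_ ?_ <;> simp only [mhi, Set.Icc.coe_one] <;> ring
    rw [ContinuousMap.coe_mk, ← this, hF, H.apply_one]
    exact thi l t x

end Square

end Crest.Agent.Lib.CW2
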