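import Crest.Agent.Lib.CW2.Contract
import Crest.Agent.Lib.CW2.Cover
import Crest.Agent.Lib.CW2.Cells
import Crest.Prelude.Def_ClassifyingComplex

/-! An aspherical finite triangular presentation gives a finite classifying complex. -/

set_option autoImplicit false

namespace Crest.Agent.Lib.CW2

variable {G : Type} [Group G] {S T : Type}

theorem TriPres.isFinitelyPresented [Finite S] [Finite T] (P : TriPres G S T) :
    Group.IsFinitelyPresented G := P.isFinitelyPresented'

theorem TriPres.torsionFree (P : TriPres G S T) (h : Function.Injective P.toTriData.bd) (g : G)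
    (hg : IsOfFinOrder g) : g = 1 := P.torsionFree' h g hg

theorem TriPres.hasFiniteClassifyingComplex [Finite S] [Finite T] (P : TriPres G S T)
    (h : Function.Injective P.toTriData.bd) : Crest.Topology.HasFiniteClassifyingComplex G 2 := by
  obtain ⟨cw, hfin, hdim⟩ := exists_cw P.toTriData.triv
  have hc := P.contractible h
  have hq := isQuotientCoveringMap_proj (P := P.toTriData)
  refine ⟨Pt P.toTriData.triv, inferInstance, cw, inferInstance, hfin, hdim,
    ⟨Pt P.toTriData, inferInstance, proj, hc, hq.isCoveringMap, proj_surjective⟩, Pt.v 1,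
    ⟨(hq.fundamentalGroupEquiv ⟨Pt.v 1, rfl⟩).trans (MulEquiv.inv' G).symm⟩⟩

end Crest.Agent.Lib.CW2
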