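import Crest.Agent.Lib.CW2.Defs

/-! The Cayley 2-complex of triangular data as a topological space. -/

set_option autoImplicit false

open unitInterval Set

namespace Crest.Agent.Lib.CW2

variable {G : Type} [Group G] {S T : Type}

/-- the open unit interval -/
abbrev OI : Type := {u : I // u ≠ 0 ∧ u ≠ 1}

/-- points of the Cayley complex: a vertex, or an interior point of an edge or of a 2-cell -/
inductive Pt (P : TriData G S T) : Type
  | v (g : G) : Pt P
  | e (g : G) (s : S) (u : OI) : Pt P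
  | t (g : G) (t : T) (x y : OI) : Pt P

variable (P : TriData G S T)

open Classical in
/-- the closed edge -/
noncomputable def edge (g : G) (s : S) (u : I) : Pt P :=
  if h0 : u = 0 then .v g else if h1 : u = 1 then .v (g * P.of s) else .e g s ⟨u, h0, h1⟩

open Classical in
/-- the closed 2-cell, a square whose left side is collapsed -/
noncomputable def sq (g : G) (t : T) (p : I × I) : Pt P :=
  if hx0 : p.1 = 0 then .v g
  else if hy0 : p.2 = 0 then edge P g (P.d01 t) p.1
  else if hy1 : p.2 = 1 then edge P g (P.d02 t) p.1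
  else if hx1 : p.1 = 1 then edge P (g * P.of (P.d01 t)) (P.d12 t) p.2
  else .t g t ⟨p.1, hx0, hx1⟩ ⟨p.2, hy0, hy1⟩

theorem edge_zero (g : G) (s : S) : edge P g s 0 = .v g := by simp [edge]

theorem edge_one (g : G) (s : S) : edge P g s 1 = .v (g * P.of s) := by simp [edge]

theorem edge_in (g : G) (s : S) (u : OI) : edge P g s u = .e g s u := by
  simp [edge, u.2.1, u.2.2]

theorem sq_left (g : G) (t : T) (y : I) : sq P g t (0, y) = .v g := by simp [sq]

theorem sq_bot (g : G) (t : T) (x : I) : sq P g t (x, 0) = edge P g (P.d01 t) x := by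
  by_cases h : x = 0
  · rw [h, sq_left, edge_zero]
  · simp [sq, h]

theorem sq_top (g : G) (t : T) (x : I) : sq P g t (x, 1) = edge P g (P.d02 t) x := by
  by_cases h : x = 0
  · rw [h, sq_left, edge_zero]
  · simp [sq, h]

theorem sq_right (g : G) (t : T) (y : I) :
    sq P g t (1, y) = edge P (g * P.of (P.d01 t)) (P.d12 t) y := by
  by_cases h0 : y = 0
  · rw [h0, sq_bot, edge_zero, edge_one]
  · by_cases h1 : y = 1
    · rw [h1, sq_top, edge_one, edge_one, mul_assoc, P.rel]
    · simp [sq, h0, h1]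

theorem sq_in (g : G) (t : T) (x y : OI) : sq P g t (x, y) = .t g t x y := by
  simp [sq, x.2.1, x.2.2, y.2.1, y.2.2]

theorem unit_cases (u : I) : u = 0 ∨ u = 1 ∨ ∃ w : OI, u = w := by
  by_cases h0 : u = 0
  · exact Or.inl h0
  · by_cases h1 : u = 1
    · exact Or.inr (Or.inl h1)
    · exact Or.inr (Or.inr ⟨⟨u, h0, h1⟩, rfl⟩)

/-- compatible data on the closed cells -/
structure Glue (W : Type) where
  fv : G → W
  fe : G → S → I → W
  ft : G → T → I × I → W
  e0 : ∀ g s, fe g s 0 = fv g
  e1 : ∀ g s, fe g s 1 = fv (g * P.of s)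
  tl : ∀ g t y, ft g t (0, y) = fv g
  tb : ∀ g t x, ft g t (x, 0) = fe g (P.d01 t) x
  tt : ∀ g t x, ft g t (x, 1) = fe g (P.d02 t) x
  tr : ∀ g t y, ft g t (1, y) = fe (g * P.of (P.d01 t)) (P.d12 t) y

variable {P}

/-- the glued function -/
def Glue.fn {W : Type} (D : Glue P W) : Pt P → W
  | .v g => D.fv g
  | .e g s u => D.fe g s u
  | .t g t x y => D.ft g t (x, y)

theorem Glue.fn_edge {W : Type} (D : Glue P W) (g : G) (s : S) (u : I) :
    D.fn (edge P g s u) = D.fe g s u := by
  rcases unit_cases u with rfl | rfl | ⟨w, rfl⟩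
  · rw [edge_zero, D.e0]; rfl
  · rw [edge_one, D.e1]; rfl
  · rw [edge_in]; rfl

theorem Glue.fn_sq {W : Type} (D : Glue P W) (g : G) (t : T) (p : I × I) :
    D.fn (sq P g t p) = D.ft g t p := by
  obtain ⟨x, y⟩ := p
  rcases unit_cases x with rfl | rfl | ⟨x, rfl⟩
  · rw [sq_left, D.tl]; rfl
  · rw [sq_right, D.fn_edge, D.tr]
  · rcases unit_cases y with rfl | rfl | ⟨y, rfl⟩
    · rw [sq_bot, D.fn_edge, D.tb]
    · rw [sq_top, D.fn_edge, D.tt]
    · rw [sq_in]; rfl

/-! ### Coordinates -/

/-- the coordinate space -/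
abbrev Co (G S T : Type) : Type := (G → ℝ) × (G × S → ℝ × ℝ) × (G × T → ℝ × ℝ × ℝ)

open Classical in
/-- coordinates of a vertex -/
noncomputable def wv (S T : Type) (g : G) : Co G S T := (Pi.single g 1, 0, 0)

open Classical in
/-- the edge coordinate -/
noncomputable def we (T : Type) (k : G × S) (u : ℝ) : Co G S T :=
  (0, Pi.single k (u * (1 - u), u * (1 - u) * u), 0)

open Classical in
/-- the face coordinate -/
noncomputable def wt (k : G × T) (x y : ℝ) : Co G S T :=
  (0, 0, Pi.single k (x * (1 - x) * (y * (1 - y)), x * (1 - x) * (y * (1 - y)) * x,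
    x * (1 - x) * (y * (1 - y)) * y))

omit [Group G] in
theorem continuous_we (k : G × S) : Continuous (we T k) := by
  classical
  unfold we
  refine continuous_const.prodMk (Continuous.prodMk ?_ continuous_const)
  exact (continuous_single (A := fun _ : G × S => ℝ × ℝ) k).comp (by fun_prop)

omit [Group G] in
theorem continuous_wt (k : G × T) : Continuous fun p : ℝ × ℝ => wt (S := S) k p.1 p.2 := by
  classical
  unfold wt
  refine continuous_const.prodMk (Continuous.prodMk continuous_const ?_)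
  exact (continuous_single (A := fun _ : G × T => ℝ × ℝ × ℝ) k).comp (by fun_prop)

omit [Group G] in
theorem we_zero (k : G × S) : we T k 0 = 0 := by simp [we, Prod.mk_zero_zero]

omit [Group G] in
theorem we_one (k : G × S) : we T k 1 = 0 := by simp [we, Prod.mk_zero_zero]

omit [Group G] in
theorem wt_bdry (k : G × T) (x : ℝ) : wt (S := S) k 0 x = 0 ∧ wt (S := S) k 1 x = 0 ∧
    wt (S := S) k x 0 = 0 ∧ wt (S := S) k x 1 = 0 := by simp [wt, Prod.mk_zero_zero]

variable (P) in
/-- the coordinates on the closed cells -/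
noncomputable def coG : Glue P (Co G S T) where
  fv g := wv S T g
  fe g s u := (1 - (u : ℝ)) • wv S T g + (u : ℝ) • wv S T (g * P.of s) + we T (g, s) u
  ft g t p := (1 - (p.1 : ℝ)) • wv S T g + ((p.1 : ℝ) * (1 - p.2)) • wv S T (g * P.of (P.d01 t)) +
    ((p.1 : ℝ) * p.2) • wv S T (g * P.of (P.d02 t)) + (1 - (p.2 : ℝ)) • we T (g, P.d01 t) p.1 +
    (p.2 : ℝ) • we T (g, P.d02 t) p.1 + (p.1 : ℝ) • we T (g * P.of (P.d01 t), P.d12 t) p.2 +
    wt (g, t) p.1 p.2
  e0 g s := by simp [we_zero]
  e1 g s := by simp [we_one]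
  tl g t y := by simp [we_zero, wt_bdry]
  tb g t x := by simp [we_zero, wt_bdry]
  tt g t x := by simp [we_one, wt_bdry]
  tr g t y := by simp [we_one, wt_bdry, mul_assoc, P.rel]

theorem OI.mul_ne_zero (u : OI) : ((u : I) : ℝ) * (1 - (u : I)) ≠ 0 :=
  _root_.mul_ne_zero (fun h => u.2.1 (Subtype.ext h))
    (fun h => u.2.2 (Subtype.ext (sub_eq_zero.1 h).symm))

theorem single_inj {α β : Type} [DecidableEq α] [Zero β] {a b : α} {x y : β} (hx : x ≠ 0)
    (h : (Pi.single a x : α → β) = Pi.single b y) : a = b ∧ x = y := by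
  have h1 := congrFun h a
  rw [Pi.single_eq_same] at h1
  by_cases e : a = b
  · subst e
    exact ⟨rfl, by rwa [Pi.single_eq_same] at h1⟩
  · rw [Pi.single_eq_of_ne e] at h1
    exact absurd h1 hx

theorem co_injective : Function.Injective (coG P).fn := by
  classical
  have hT : ∀ g t (x y : OI), ((coG P).fn (.t g t x y)).2.2 = (wt (S := S) (g, t) x y).2.2 := by
    intro g t x y
    simp [Glue.fn, coG, wv, we]
  have hE : ∀ g s (u : OI), ((coG P).fn (.e g s u)).2 = (we T (g, s) u).2 := by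
    intro g s u
    simp [Glue.fn, coG, wv]
  have hV : ∀ g, (coG P).fn (.v g) = wv S T g := fun _ => rfl
  have hT0 : ∀ g t (x y : OI), ((coG P).fn (.t g t x y)).2.2 ≠ 0 := by
    intro g t x y h
    rw [hT, wt, Pi.single_eq_zero_iff] at h
    exact _root_.mul_ne_zero x.mul_ne_zero y.mul_ne_zero (congrArg Prod.fst h)
  have hE0 : ∀ g s (u : OI), ((coG P).fn (.e g s u)).2.1 ≠ 0 := by
    intro g s u h
    rw [hE, we, Pi.single_eq_zero_iff] at h
    exact u.mul_ne_zero (congrArg Prod.fst h)
  rintro (g | ⟨g, s, u⟩ | ⟨g, t, x, y⟩) (g' | ⟨g', s', u'⟩ | ⟨g', t', x', y'⟩) h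
  · have h1 := congrArg Prod.fst h
    rw [hV, hV] at h1
    rw [(single_inj one_ne_zero h1).1]
  · exact absurd (h ▸ rfl) (hE0 g' s' u')
  · exact absurd (h ▸ rfl) (hT0 g' t' x' y')
  · exact absurd (h.symm ▸ rfl) (hE0 g s u)
  · have h1 := congrArg (fun c => c.2.1) h
    simp only [hE, we] at h1
    obtain ⟨h2, h3⟩ := single_inj (fun e => u.mul_ne_zero (congrArg Prod.fst e)) h1
    obtain ⟨rfl, rfl⟩ := Prod.mk.inj h2
    obtain ⟨h4, h5⟩ := Prod.mk.inj h3
    rw [← h4] at h5
    rw [show u = u' from Subtype.ext (Subtype.ext (mul_left_cancel₀ u.mul_ne_zero h5))]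
  · refine absurd ?_ (hT0 g' t' x' y')
    rw [← h, hE]; rfl
  · exact absurd (h.symm ▸ rfl) (hT0 g t x y)
  · refine absurd ?_ (hT0 g t x y)
    rw [h, hE]; rfl
  · have h1 := congrArg (fun c => c.2.2) h
    simp only [hT, wt] at h1
    have hne := _root_.mul_ne_zero x.mul_ne_zero y.mul_ne_zero
    obtain ⟨h2, h3⟩ := single_inj (fun e => hne (congrArg Prod.fst e)) h1
    obtain ⟨rfl, rfl⟩ := Prod.mk.inj h2
    obtain ⟨h4, h5⟩ := Prod.mk.inj h3
    obtain ⟨h5, h6⟩ := Prod.mk.inj h5
    rw [← h4] at h5 h6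
    rw [show x = x' from Subtype.ext (Subtype.ext (mul_left_cancel₀ hne h5)),
      show y = y' from Subtype.ext (Subtype.ext (mul_left_cancel₀ hne h6))]

noncomputable instance : TopologicalSpace (Pt P) := TopologicalSpace.induced (coG P).fn inferInstance

theorem continuous_co : Continuous (coG P).fn := continuous_induced_dom

instance : T2Space (Pt P) := T2Space.of_injective_continuous co_injective continuous_co

theorem continuous_edge (g : G) (s : S) : Continuous (edge P g s) := by
  refine continuous_induced_rng.2 ?_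
  refine Continuous.congr (f := (coG P).fe g s) ?_ fun u => ((coG P).fn_edge g s u).symm
  have := continuous_we (T := T) (g, s)
  unfold coG
  fun_prop

theorem continuous_sq (g : G) (t : T) : Continuous (sq P g t) := by
  refine continuous_induced_rng.2 ?_
  refine Continuous.congr (f := (coG P).ft g t) ?_ fun u => ((coG P).fn_sq g t u).symm
  have h1 := continuous_we (T := T) (g, P.d01 t)
  have h2 := continuous_we (T := T) (g, P.d02 t)
  have h3 := continuous_we (T := T) (g * P.of (P.d01 t), P.d12 t)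
  have h4 : Continuous fun p : I × I => wt (S := S) (g, t) p.1 p.2 :=
    (continuous_wt (g, t)).comp (f := fun p : I × I => ((p.1 : ℝ), (p.2 : ℝ))) (by fun_prop)
  unfold coG
  fun_prop

/-! ### Closed cells and gluing -/

variable (P) in
/-- all closed cells as images of the square -/
noncomputable def cell (c : G × (Unit ⊕ S ⊕ T)) (p : I × I) : Pt P :=
  match c with
  | (g, .inl _) => .v g
  | (g, .inr (.inl s)) => edge P g s p.1
  | (g, .inr (.inr t)) => sq P g t p

theorem continuous_cell (c : G × (Unit ⊕ S ⊕ T)) : Continuous (cell P c) := by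
  rcases c with ⟨g, _ | s | t⟩
  · exact continuous_const
  · exact (continuous_edge g s).comp continuous_fst
  · exact continuous_sq g t

theorem exists_cell (x : Pt P) : ∃ c p, cell P c p = x := by
  rcases x with g | ⟨g, s, u⟩ | ⟨g, t, x, y⟩
  · exact ⟨(g, .inl ()), (0, 0), rfl⟩
  · exact ⟨(g, .inr (.inl s)), (u, 0), edge_in P g s u⟩
  · exact ⟨(g, .inr (.inr t)), (x, y), sq_in P g t x y⟩

/-- the weight of a point at a vertex -/
noncomputable def wgt (x : Pt P) (k : G) : ℝ := ((coG P).fn x).1 k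

theorem continuous_wgt (k : G) : Continuous fun x : Pt P => wgt x k :=
  (continuous_apply k).comp continuous_co.fst

open Classical in
theorem wgt_v (g k : G) : wgt (.v g : Pt P) k = if k = g then 1 else 0 := by
  simp [wgt, Glue.fn, coG, wv, Pi.single_apply]

open Classical in
theorem wgt_edge (g : G) (s : S) (u : I) (k : G) : wgt (edge P g s u) k =
    (1 - u) * (if k = g then 1 else 0) + u * (if k = g * P.of s then 1 else 0) := by
  rw [wgt, Glue.fn_edge]
  simp [coG, wv, we, Pi.single_apply]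

open Classical in
theorem wgt_sq (g : G) (t : T) (p : I × I) (k : G) : wgt (sq P g t p) k =
    (1 - p.1) * (if k = g then 1 else 0) +
      p.1 * (1 - p.2) * (if k = g * P.of (P.d01 t) then 1 else 0) +
      p.1 * p.2 * (if k = g * P.of (P.d02 t) then 1 else 0) := by
  rw [wgt, Glue.fn_sq]
  simp [coG, wv, we, wt, Pi.single_apply]

theorem wgt_cell {c : G × (Unit ⊕ S ⊕ T)} {p : I × I} {k : G} (h : wgt (cell P c p) k ≠ 0) :
    c.1⁻¹ * k ∈ insert (1 : G) (range P.of) := by
  by_contra hc
  apply h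
  have h1 : k ≠ c.1 := by rintro rfl; simp at hc
  have h2 : ∀ s, k ≠ c.1 * P.of s := by rintro s rfl; simp at hc
  rcases c with ⟨g, _ | s | t⟩
  · simp only [cell, wgt_v, if_neg h1]
  · simp only [cell, wgt_edge, if_neg h1, if_neg (h2 _)]; simp
  · simp only [cell, wgt_sq, if_neg h1, if_neg (h2 _)]; simp

theorem exists_wgt (x : Pt P) : ∃ k, wgt x k ≠ 0 := by
  rcases x with g | ⟨g, s, u⟩ | ⟨g, t, x, y⟩
  · exact ⟨g, by simp [wgt_v]⟩
  · refine ⟨g, ?_⟩
    rw [← edge_in, wgt_edge, if_pos rfl]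
    have h1 : ((u : I) : ℝ) < 1 := lt_of_le_of_ne u.1.2.2 fun h => u.2.2 (Subtype.ext h)
    have h2 := u.1.2.1
    split_ifs <;> linarith
  · refine ⟨g, ?_⟩
    rw [← sq_in, wgt_sq, if_pos rfl]
    have h1 : ((x : I) : ℝ) < 1 := lt_of_le_of_ne x.1.2.2 fun h => x.2.2 (Subtype.ext h)
    have h2 : 0 ≤ ((x : I) : ℝ) * (1 - (y : I)) := mul_nonneg x.1.2.1 (by linarith [y.1.2.2])
    have h3 : 0 ≤ ((x : I) : ℝ) * (y : I) := mul_nonneg x.1.2.1 y.1.2.1
    dsimp only
    split_ifs <;> linarith

theorem wgt_nhds {x : Pt P} {k : G} (h : wgt x k ≠ 0) : {y : Pt P | wgt y k ≠ 0} ∈ nhds x :=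
  (isOpen_ne_fun (continuous_wgt k) continuous_const).mem_nhds h

theorem locallyFinite_cell [Finite S] [Finite T] : LocallyFinite fun c => range (cell P c) := by
  intro x
  obtain ⟨k, hk⟩ := exists_wgt x
  refine ⟨_, wgt_nhds hk, ?_⟩
  refine ((((finite_range P.of).insert 1).image fun b => k * b⁻¹).prod finite_univ).subset ?_
  rintro c ⟨_, ⟨p, rfl⟩, h⟩
  exact ⟨⟨_, wgt_cell h, by simp⟩, trivial⟩

theorem continuous_of_cell [Finite S] [Finite T] {W : Type} [TopologicalSpace W] {f : Pt P → W}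
    (h : ∀ c, Continuous (f ∘ cell P c)) : Continuous f := by
  refine locallyFinite_cell.continuous ?_ (fun c => (isCompact_range (continuous_cell c)).isClosed)
    fun c => ?_
  · refine eq_univ_of_forall fun x => ?_
    obtain ⟨c, p, rfl⟩ := exists_cell x
    exact mem_iUnion.2 ⟨c, p, rfl⟩
  · refine continuousOn_iff_isClosed.2 fun t ht =>
      ⟨_, (continuous_cell c).isClosedMap _ (ht.preimage (h c)), ?_⟩
    ext y
    constructor
    · rintro ⟨h1, p, rfl⟩
      exact ⟨⟨p, h1, rfl⟩, p, rfl⟩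
    · rintro ⟨⟨p, h1, rfl⟩, h2⟩
      exact ⟨h1, h2⟩

theorem continuous_of_edge_sq [Finite S] [Finite T] {W : Type} [TopologicalSpace W] {f : Pt P → W}
    (he : ∀ g s, Continuous (f ∘ edge P g s)) (ht : ∀ g t, Continuous (f ∘ sq P g t)) :
    Continuous f := by
  refine continuous_of_cell ?_
  rintro ⟨g, _ | s | t⟩
  · exact continuous_const (y := f (.v g))
  · exact (he g s).comp continuous_fst
  · exact ht g t

theorem Glue.continuous [Finite S] [Finite T] {W : Type} [TopologicalSpace W] (D : Glue P W)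
    (he : ∀ g s, Continuous (D.fe g s)) (ht : ∀ g t, Continuous (D.ft g t)) : Continuous D.fn :=
  continuous_of_edge_sq (fun g s => (he g s).congr fun u => (D.fn_edge g s u).symm)
    fun g t => (ht g t).congr fun u => (D.fn_sq g t u).symm

end Crest.Agent.Lib.CW2
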